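import Crest.Agent.N221.C.Two

-- ▼ part N221/C/Bdy
section

/-!
Row 221, block C: asymptotic directions and Busemann functions.
-/

set_option autoImplicit false
set_option linter.unusedSectionVars false
set_option linter.unusedVariables false

open MeasureTheory Set Filter Topology
open scoped ContDiff RealInnerProductSpace ENNReal
open Crest.GeometryTopology.Submanifold
open Crest.Agent.R241.DDefs Crest.Agent.R241.D2
open Crest.Agent.R208.J Crest.Agent.R208.L

noncomputable section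

namespace Crest.Agent.N221.Cov

variable {n N : ℕ} {a : ℝ} {S : Set (Euc N)} {G : Geo n N (-(a ^ 2)) S} (C : Cov G)

namespace BdyAux

lemma tendsto_exp {a : ℝ} (ha : 0 < a) {α : Type*} {l : Filter α} {f : α → ℝ}
    (hf : Tendsto f l atTop) (K : ℝ) : Tendsto (fun t => K * Real.exp (-(a * f t))) l (𝓝 0) := by
  simpa using (Real.tendsto_exp_neg_atTop_nhds_zero.comp (hf.const_mul_atTop ha)).const_mul K

lemma tendsto_sub (d : ℝ) : Tendsto (fun t : ℝ => t - d) atTop atTop :=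
  tendsto_atTop_add_const_right atTop (-d) tendsto_id

/-- continuity from a rate of convergence -/
lemma cont_of_rate {Z E : Type*} [TopologicalSpace Z] [PseudoMetricSpace E] {A : Set Z}
    {f : Z → E} {F : ℝ → Z → E} {d : Z → ℝ} (hd : Continuous d) {b : ℝ → ℝ}
    (hb : Tendsto b atTop (𝓝 0))
    (hF : ∀ z ∈ A, ∀ t, d z + 1 ≤ t → ContinuousAt (F t) z ∧ dist (F t z) (f z) ≤ b (t - d z)) :
    ContinuousOn f A := by
  refine continuousOn_of_locally_uniform_approx_of_continuousWithinAt fun z hz u hu => ?_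
  obtain ⟨ε, hε, hu⟩ := Metric.mem_uniformity_dist.1 hu
  obtain ⟨R, hR⟩ := eventually_atTop.1 (hb.eventually_lt_const hε)
  have h1 := le_max_left R 1
  have h2 := le_max_right R 1
  refine ⟨A ∩ {w | d w < d z + 1}, inter_mem_nhdsWithin _
    (hd.continuousAt.eventually_lt_const (by linarith)), F (d z + 1 + max R 1),
    (hF z hz _ (by linarith)).1.continuousWithinAt, fun w hw => hu ?_⟩
  have h3 : d w < d z + 1 := hw.2
  rw [dist_comm]
  exact (hF w hw.1 _ (by linarith)).2.trans_lt (hR _ (by linarith))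

lemma norm_sub_le_of_inner {u w : Euc N} (hu : ‖u‖ ≤ 1) (hw : ‖w‖ ≤ 1) {E : ℝ} (hE : 0 ≤ E)
    (h : 1 - ⟪u, w⟫ ≤ 4 * E ^ 2) : ‖u - w‖ ≤ 3 * E := by
  refine (pow_le_pow_iff_left₀ (norm_nonneg _) (by positivity) two_ne_zero).1 ?_
  rw [norm_sub_sq_real]
  nlinarith [norm_nonneg u, norm_nonneg w]

end BdyAux

open BdyAux

variable (ha : 0 < a) {x y : Euc n} {v : Euc N}
include ha

lemma one_sub_inner_le (p P Q : Euc n) {L : ℝ} (h : C.dd P Q + L ≤ C.dd p P + C.dd p Q) :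
    1 - ⟪C.dir p P, C.dir p Q⟫ ≤ 4 * Real.exp (-(a * L)) := by
  have h1 := C.gromov_exp ha p P Q
  have h2 : Real.exp (a * C.dd P Q) ≤
      Real.exp (-(a * L)) * Real.exp (a * (C.dd p P + C.dd p Q)) := by
    rw [← Real.exp_add]
    exact Real.exp_le_exp.2 (by nlinarith)
  refine le_of_mul_le_mul_right ?_ (Real.exp_pos (a * (C.dd p P + C.dd p Q)))
  linarith

lemma dir_sub_le (p P Q : Euc n) {L : ℝ} (h : C.dd P Q + 2 * L ≤ C.dd p P + C.dd p Q) :
    ‖C.dir p P - C.dir p Q‖ ≤ 3 * Real.exp (-(a * L)) := by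
  refine norm_sub_le_of_inner (C.norm_dir_le _ _) (C.norm_dir_le _ _) (Real.exp_pos _).le ?_
  convert C.one_sub_inner_le ha p P Q h using 2
  rw [sq, ← Real.exp_add]
  congr 1
  ring

lemma le_dd_gd (hv : C.Un x v) (y : Euc n) (t : ℝ) : t - C.dd x y ≤ C.dd y (C.gd x v t) := by
  have h1 := C.dd_triangle ha.le x y (C.gd x v t)
  rw [hv.dd_gd_zero] at h1
  linarith [le_abs_self t]

lemma ne_gd (hv : C.Un x v) {y : Euc n} {t : ℝ} (ht : C.dd x y < t) : y ≠ C.gd x v t := by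
  intro h
  have h1 := C.le_dd_gd ha hv y t
  rw [← h, C.dd_self] at h1
  linarith

/-- `gromov_exp` at `y` for `gd x v t`, `gd x v t'` -/
lemma dir_cauchy (hv : C.Un x v) (y : Euc n) {t t' : ℝ} (ht : C.dd x y < t) (htt : t ≤ t') :
    ‖C.dir y (C.gd x v t) - C.dir y (C.gd x v t')‖ ≤
      3 * Real.exp (-(a * (t - C.dd x y))) := by
  refine C.dir_sub_le ha _ _ _ ?_
  rw [hv.dd_gd, abs_of_nonneg (by linarith)]
  linarith [C.le_dd_gd ha hv y t, C.le_dd_gd ha hv y t']

lemma tendsto_asy (hv : C.Un x v) (y : Euc n) :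
    Tendsto (fun t => C.dir y (C.gd x v t)) atTop (𝓝 (C.asy x v y)) := by
  refine CauchySeq.tendsto_limUnder (Metric.cauchySeq_iff'.2 fun ε hε => ?_)
  obtain ⟨t, h1, h2⟩ := (((tendsto_exp ha (tendsto_sub (C.dd x y)) 3).eventually_lt_const hε).and
    (eventually_gt_atTop (C.dd x y))).exists
  refine ⟨t, fun t' ht' => ?_⟩
  rw [dist_comm, dist_eq_norm]
  exact (C.dir_cauchy ha hv y h2 ht').trans_lt h1

lemma asy_rate (hv : C.Un x v) (y : Euc n) {t : ℝ} (ht : C.dd x y < t) :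
    ‖C.dir y (C.gd x v t) - C.asy x v y‖ ≤ 3 * Real.exp (-(a * (t - C.dd x y))) :=
  le_of_tendsto ((C.tendsto_asy ha hv y).const_sub _).norm
    ((eventually_ge_atTop t).mono fun _ h => C.dir_cauchy ha hv y ht h)

lemma un_asy (hv : C.Un x v) (y : Euc n) : C.Un y (C.asy x v y) :=
  (isClosed_US G).mem_of_tendsto (tendsto_const_nhds.prodMk_nhds (C.tendsto_asy ha hv y))
    ((eventually_gt_atTop (C.dd x y)).mono fun _ h => C.un_dir (C.ne_gd ha hv h))

lemma asy_self (hv : C.Un x v) (t : ℝ) : C.asy x v (C.gd x v t) = C.vel x v t :=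
  tendsto_nhds_unique (C.tendsto_asy ha hv _) (tendsto_const_nhds.congr'
    ((eventually_gt_atTop t).mono fun _ h => (hv.dir_gd C h).symm))

lemma antitone_bus (hv : C.Un x v) (y : Euc n) : Antitone fun t => C.dd y (C.gd x v t) - t := by
  intro t t' h
  have h1 := C.dd_triangle ha.le y (C.gd x v t) (C.gd x v t')
  rw [hv.dd_gd, abs_of_nonneg (by linarith)] at h1
  simp only
  linarith

lemma tendsto_bus (hv : C.Un x v) (y : Euc n) :
    Tendsto (fun t => C.dd y (C.gd x v t) - t) atTop (𝓝 (C.bus x v y)) := by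
  refine tendsto_nhds_limUnder ⟨_, tendsto_atTop_ciInf (C.antitone_bus ha hv y) ⟨-C.dd x y, ?_⟩⟩
  rintro _ ⟨t, rfl⟩
  simp only
  linarith [C.le_dd_gd ha hv y t]

/-- `t ↦ dd y (gd x v t) - t` is antitone with derivative `c(t) - 1`, `1 - c(t) ≤ K e^{-2at}`;
or `gromov`-type two-sided estimate -/
lemma bus_rate (hv : C.Un x v) (y : Euc n) {t : ℝ} (ht : C.dd x y + 1 ≤ t) :
    0 ≤ C.dd y (C.gd x v t) - t - C.bus x v y ∧
    C.dd y (C.gd x v t) - t - C.bus x v y ≤
      2 / a * Real.exp (2 * a) * Real.exp (-(2 * a * (t - C.dd x y))) := by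
  refine ⟨sub_nonneg.2 ((C.antitone_bus ha hv y).le_of_tendsto (C.tendsto_bus ha hv y) t), ?_⟩
  have hd := C.dd_nonneg x y
  set g : ℝ → ℝ := fun s => C.dd y (C.gd x v s) - s - 2 / a * Real.exp (-(2 * a * (s - C.dd x y)))
    with hg
  have hder : ∀ s, t ≤ s → HasDerivAt g (-⟪C.dir (C.gd x v s) y, C.vel x v s⟫ - 1 -
      2 / a * (Real.exp (-(2 * a * (s - C.dd x y))) * -(2 * a * 1))) s := fun s hs =>
    ((C.hasDerivAt_dd hv.mem (C.ne_gd ha hv (by linarith)).symm).sub (hasDerivAt_id s)).sub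
      ((((hasDerivAt_id s).sub_const _).const_mul (2 * a)).neg.exp.const_mul _)
  have hmono : MonotoneOn g (Ici t) := by
    refine monotoneOn_of_deriv_nonneg (convex_Ici t)
      (fun s hs => (hder s hs).continuousAt.continuousWithinAt)
      (fun s hs => (hder s (interior_subset hs)).differentiableAt.differentiableWithinAt)
      fun s hs => ?_
    have hs' : t ≤ s := interior_subset hs
    rw [(hder s hs').deriv]
    have h1 := hv.dir_gd' C (show (0 : ℝ) < s by linarith)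
    rw [C.gd_zero] at h1
    have h2 := C.one_sub_inner_le ha (C.gd x v s) y x (L := 2 * (s - C.dd x y)) (by
      rw [C.dd_comm (C.gd x v s) y, C.dd_comm (C.gd x v s) x, C.dd_comm y x, hv.dd_gd_zero]
      linarith [C.le_dd_gd ha hv y s, le_abs_self s])
    rw [h1, inner_neg_right, show a * (2 * (s - C.dd x y)) = 2 * a * (s - C.dd x y) by ring] at h2
    have h3 : 2 / a * (Real.exp (-(2 * a * (s - C.dd x y))) * -(2 * a * 1)) =
        -(4 * Real.exp (-(2 * a * (s - C.dd x y)))) := by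
      field_simp
      norm_num
    rw [h3]
    linarith
  have hlim : Tendsto g atTop (𝓝 (C.bus x v y - 0)) := (C.tendsto_bus ha hv y).sub
    (tendsto_exp (by positivity) (tendsto_sub (C.dd x y)) _)
  have h1 : g t ≤ C.bus x v y - 0 := ge_of_tendsto hlim
    ((eventually_ge_atTop t).mono fun s hs => hmono self_mem_Ici hs hs)
  have h2 : 1 ≤ Real.exp (2 * a) := Real.one_le_exp (by positivity)
  have h3 : 0 ≤ 2 / a * Real.exp (-(2 * a * (t - C.dd x y))) := by positivity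
  simp only [hg] at h1
  nlinarith

lemma abs_bus_sub_le (hv : C.Un x v) (y z : Euc n) :
    |C.bus x v y - C.bus x v z| ≤ C.dd y z := by
  refine le_of_tendsto' ((C.tendsto_bus ha hv y).sub (C.tendsto_bus ha hv z)).abs fun t => ?_
  rw [sub_sub_sub_cancel_right, C.dd_comm y (C.gd x v t), C.dd_comm z]
  exact C.abs_dd_sub_le ha.le _ _ _

lemma bus_gd (hv : C.Un x v) (t : ℝ) : C.bus x v (C.gd x v t) = -t :=
  tendsto_nhds_unique (C.tendsto_bus ha hv _) (tendsto_const_nhds.congr'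
    ((eventually_ge_atTop t).mono fun s h => by
      simp only
      rw [hv.dd_gd, abs_of_nonneg (by linarith)]
      ring))

/-- asymptotic geodesics converge exponentially (limit of `tail`) -/
lemma asy_tail (hv : C.Un x v) (y : Euc n) {s : ℝ} (hs : 0 ≤ s) :
    C.dd (C.gd y (C.asy x v y) s) (C.gd x v (s - C.bus x v y)) ≤
      2 / a * Real.exp (-(a * s)) * Real.sinh (a * C.dd x y) := by
  have hg := C.contDiff_gd.continuous
  have h1 : Tendsto (fun T => C.gd y (C.dir y (C.gd x v T)) s) atTop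
      (𝓝 (C.gd y (C.asy x v y) s)) :=
    (hg.tendsto (y, C.asy x v y, s)).comp (tendsto_const_nhds.prodMk_nhds
      ((C.tendsto_asy ha hv y).prodMk_nhds tendsto_const_nhds))
  have h2 : Tendsto (fun T => s + (T - C.dd y (C.gd x v T))) atTop (𝓝 (s - C.bus x v y)) :=
    ((C.tendsto_bus ha hv y).const_sub s).congr fun T => by ring
  have h3 := ((C.contDiff_gd_t x v).continuous.tendsto _).comp h2
  refine le_of_tendsto ((C.continuous_dd.tendsto (_, _)).comp (h1.prodMk_nhds h3)) ?_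
  filter_upwards [eventually_ge_atTop (s + C.dd x y)] with T hT
  have hd := C.dd_nonneg x y
  exact (C.tail ha hv y (by linarith) le_rfl hs (by linarith [C.le_dd_gd ha hv y T])).2.2

lemma asy_bdd (hv : C.Un x v) (y : Euc n) :
    ∃ B, ∀ s, 0 ≤ s → C.dd (C.gd y (C.asy x v y) s) (C.gd x v s) ≤ B := by
  refine ⟨2 / a * Real.sinh (a * C.dd x y) + |C.bus x v y|, fun s hs => ?_⟩
  have h1 := C.dd_triangle ha.le (C.gd y (C.asy x v y) s) (C.gd x v (s - C.bus x v y)) (C.gd x v s)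
  rw [hv.dd_gd, sub_sub_cancel] at h1
  have h2 := C.asy_tail ha hv y hs
  have h3 : Real.exp (-(a * s)) ≤ 1 := Real.exp_le_one_iff.2 (by nlinarith)
  have h4 : 0 ≤ 2 / a * Real.sinh (a * C.dd x y) :=
    mul_nonneg (by positivity) (Real.sinh_nonneg_iff.2 (mul_nonneg ha.le (C.dd_nonneg x y)))
  nlinarith

/-- uniqueness: a unit vector at `y` whose ray stays at bounded distance is `asy` (`h2_exp`) -/
lemma eq_asy (hv : C.Un x v) {u : Euc N} (hu : C.Un y u) {B : ℝ}
    (h : ∀ s, 0 ≤ s → C.dd (C.gd y u s) (C.gd x v s) ≤ B) : u = C.asy x v y := by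
  obtain ⟨B', h'⟩ := C.asy_bdd ha hv y
  have hu' := C.un_asy ha hv y
  rw [← sub_eq_zero, ← norm_le_zero_iff]
  refine ge_of_tendsto (tendsto_exp ha (tendsto_sub ((B + B') / 2)) 3) ?_
  filter_upwards [eventually_gt_atTop 0] with r hr
  have h1 := C.dir_sub_le ha y (C.gd y u r) (C.gd y (C.asy x v y) r) (L := r - (B + B') / 2) (by
    have h2 := C.dd_triangle ha.le (C.gd y u r) (C.gd x v r) (C.gd y (C.asy x v y) r)
    rw [C.dd_comm (C.gd x v r)] at h2
    rw [hu.dd_gd_zero, hu'.dd_gd_zero, abs_of_pos hr]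
    linarith [h r hr.le, h' r hr.le])
  rwa [hu.dir_gd_zero C hr, hu'.dir_gd_zero C hr] at h1

lemma asy_asy (hv : C.Un x v) (y z : Euc n) : C.asy y (C.asy x v y) z = C.asy x v z := by
  have hu := C.un_asy ha hv y
  obtain ⟨B, h⟩ := C.asy_bdd ha hv y
  obtain ⟨B', h'⟩ := C.asy_bdd ha hu z
  exact C.eq_asy ha hv (C.un_asy ha hu z) (B := B' + B) fun s hs =>
    (C.dd_triangle ha.le _ _ _).trans (add_le_add (h' s hs) (h s hs))

lemma bus_asy (hv : C.Un x v) (y z : Euc n) :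
    C.bus y (C.asy x v y) z = C.bus x v z - C.bus x v y := by
  have hu := C.un_asy ha hv y
  have h1 := C.tendsto_bus ha hu z
  have h2 := (C.tendsto_bus ha hv z).comp (tendsto_sub (C.bus x v y))
  have h3 : Tendsto (fun s => C.dd z (C.gd y (C.asy x v y) s) -
      C.dd z (C.gd x v (s - C.bus x v y))) atTop (𝓝 0) := by
    refine squeeze_zero_norm' ?_ (tendsto_exp ha tendsto_id (2 / a * Real.sinh (a * C.dd x y)))
    filter_upwards [eventually_ge_atTop 0] with s hs
    refine (C.abs_dd_sub_le ha.le _ _ _).trans ((C.asy_tail ha hv y hs).trans_eq ?_)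
    simp only [id]
    ring
  have h4 := tendsto_nhds_unique h1 (((h3.add h2).sub_const (C.bus x v y)).congr fun s => by
    simp only [Function.comp]
    ring)
  rw [h4, zero_add]

lemma vel_asy (hv : C.Un x v) (y : Euc n) (s : ℝ) :
    C.vel y (C.asy x v y) s = C.asy x v (C.gd y (C.asy x v y) s) := by
  rw [← C.asy_self ha (C.un_asy ha hv y), C.asy_asy ha hv]

lemma bus_gd_asy (hv : C.Un x v) (y : Euc n) (s : ℝ) :
    C.bus x v (C.gd y (C.asy x v y) s) = C.bus x v y - s := by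
  have h := C.bus_gd ha (C.un_asy ha hv y) s
  rw [C.bus_asy ha hv] at h
  linarith

omit ha in
lemma continuous_dd_13 : Continuous fun z : Euc n × Euc N × Euc n => C.dd z.1 z.2.2 := by
  have h := C.continuous_dd.comp (f := fun z : Euc n × Euc N × Euc n => (z.1, z.2.2)) (by fun_prop)
  simpa only [Function.comp_def] using h

omit ha in
lemma continuous_pair (t : ℝ) :
    Continuous fun z : Euc n × Euc N × Euc n => (z.2.2, C.gd z.1 z.2.1 t) :=
  continuous_snd.snd.prodMk (C.contDiff_gd.continuous.comp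
    (continuous_fst.prodMk (continuous_snd.fst.prodMk continuous_const)))

lemma continuousOn_asy : ContinuousOn (fun z : Euc n × Euc N × Euc n => C.asy z.1 z.2.1 z.2.2)
    {z | C.Un z.1 z.2.1} := by
  refine cont_of_rate (F := fun t z => C.dir z.2.2 (C.gd z.1 z.2.1 t))
    (d := fun z => C.dd z.1 z.2.2)
    C.continuous_dd_13
    (tendsto_exp ha tendsto_id 3) fun z hz t ht => ⟨?_, ?_⟩
  · have h1 := (C.contDiffAt_dir (C.ne_gd ha hz (show C.dd z.1 z.2.2 < t by linarith))).continuousAt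
    have h2 := ContinuousAt.comp (f := fun z : Euc n × Euc N × Euc n => (z.2.2, C.gd z.1 z.2.1 t))
      (x := z) h1 (C.continuous_pair t).continuousAt
    simpa only [Function.comp_def] using h2
  · rw [dist_eq_norm]
    exact C.asy_rate ha hz _ (by linarith)

lemma continuousOn_bus : ContinuousOn (fun z : Euc n × Euc N × Euc n => C.bus z.1 z.2.1 z.2.2)
    {z | C.Un z.1 z.2.1} := by
  refine cont_of_rate (F := fun t z => C.dd z.2.2 (C.gd z.1 z.2.1 t) - t)
    (d := fun z => C.dd z.1 z.2.2)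
    C.continuous_dd_13
    (tendsto_exp (show 0 < 2 * a by positivity) tendsto_id (2 / a * Real.exp (2 * a)))
    fun z hz t ht => ⟨?_, ?_⟩
  · have h2 := C.continuous_dd.comp (C.continuous_pair t)
    simp only [Function.comp_def] at h2
    exact (h2.sub continuous_const).continuousAt
  · obtain ⟨h1, h2⟩ := C.bus_rate ha hz z.2.2 ht
    rw [Real.dist_eq, abs_of_nonneg h1]
    exact h2

/-- the gradient of the Busemann function (locally uniform limit of `hasFDerivAt_dd`,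
`hasFDerivAt_of_tendstoLocallyUniformlyOn`) -/
lemma hasFDerivAt_bus (hv : C.Un x v) (y : Euc n) :
    HasFDerivAt (C.bus x v) (-(innerSL ℝ (C.asy x v y)).comp (fderiv ℝ C.pr y)) y := by
  have hd : Tendsto (fun p : ℝ × Euc n => p.1 - C.dd x p.2) (atTop ×ˢ 𝓝 y) atTop :=
    tendsto_fst.atTop_add (((C.continuous_dd_right x).tendsto y).comp tendsto_snd).neg
  refine hasFDerivAt_of_tendstoUniformlyOnFilter (l := (atTop : Filter ℝ))
    (f := fun t y => C.dd y (C.gd x v t) - t)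
    (f' := fun t y => -(innerSL ℝ (C.dir y (C.gd x v t))).comp (fderiv ℝ C.pr y))
    (g' := fun y => -(innerSL ℝ (C.asy x v y)).comp (fderiv ℝ C.pr y)) ?_ ?_
    (Eventually.of_forall fun y => C.tendsto_bus ha hv y)
  · rw [Metric.tendstoUniformlyOnFilter_iff]
    intro ε hε
    have h1 : Tendsto (fun p : ℝ × Euc n => ‖fderiv ℝ C.pr p.2‖) (atTop ×ˢ 𝓝 y)
        (𝓝 ‖fderiv ℝ C.pr y‖) :=
      (((C.pr_smooth.continuous_fderiv (by simp)).tendsto y).comp tendsto_snd).norm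
    have h2 := (tendsto_exp ha hd 3).mul h1
    rw [zero_mul] at h2
    filter_upwards [h2.eventually_lt_const hε, hd.eventually_gt_atTop 0] with p h3 h4
    rw [dist_neg_neg, dist_comm, dist_eq_norm, ← ContinuousLinearMap.sub_comp, ← map_sub]
    refine lt_of_le_of_lt ((ContinuousLinearMap.opNorm_comp_le _ _).trans ?_) h3
    rw [innerSL_apply_norm]
    exact mul_le_mul_of_nonneg_right (C.asy_rate ha hv _ (by linarith)) (norm_nonneg _)
  · filter_upwards [hd.eventually_gt_atTop 0] with p h4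
    simp only [fun y => C.dd_comm y (C.gd x v p.1)]
    exact (C.hasFDerivAt_dd (C.ne_gd ha hv (by linarith))).sub_const _

omit ha in
lemma Deck.asy_eq {g : Euc n → Euc n} (h : C.Deck g) (hv : C.Un x v) (y : Euc n) :
    C.asy (g x) v (g y) = C.asy x v y := by
  unfold asy
  simp only [h.gd_eq C hv.mem, h.dir_eq]
omit ha in
lemma Deck.bus_eq {g : Euc n → Euc n} (h : C.Deck g) (hv : C.Un x v) (y : Euc n) :
    C.bus (g x) v (g y) = C.bus x v y := by
  unfold bus
  simp only [h.gd_eq C hv.mem, h.dd_eq]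

/-- directions from a convergent bounded sequence of points to far points of a ray -/
lemma tendsto_dir_seq (hv : C.Un x v) {m : ℕ → Euc n} {m₀ : Euc n} {T : ℕ → ℝ}
    (hm : Tendsto m atTop (𝓝 m₀)) (hT : Tendsto T atTop atTop) :
    Tendsto (fun k => C.dir (m k) (C.gd x v (T k))) atTop (𝓝 (C.asy x v m₀)) := by
  have h1 : Continuous fun y => C.asy x v y :=
    (C.continuousOn_asy ha).comp_continuous (f := fun y => (x, v, y)) (by fun_prop) fun _ => hv
  have hd : Tendsto (fun k => T k - C.dd x (m k)) atTop atTop :=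
    hT.atTop_add (((C.continuous_dd_right x).tendsto m₀).comp hm).neg
  have h2 : Tendsto (fun k => C.dir (m k) (C.gd x v (T k)) - C.asy x v (m k)) atTop (𝓝 0) := by
    refine squeeze_zero_norm' ?_ (tendsto_exp ha hd 3)
    filter_upwards [hd.eventually_gt_atTop 0] with k hk
    exact C.asy_rate ha hv _ (by linarith)
  simpa using h2.add ((h1.tendsto m₀).comp hm)

/-- VISIBILITY: two different directions at `x` are joined by a geodesic passing at controlled
distance (`gromov_exp`, `thin`, `tail`, compactness as in `join`) -/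
lemma visib {w : Euc N} (hv : C.Un x v) (hw : C.Un x w) {c : ℝ} (hc : ⟪v, w⟫ ≤ c) (hc1 : c < 1) :
    ∃ (m : Euc n) (u : Euc N), C.Un m u ∧ u = C.asy x v m ∧ -u = C.asy x w m ∧
      Real.cosh (a * C.dd x m) ≤ 1 + Real.log (4 / (1 - c)) * (4 / (1 - c)) /
        (1 - Real.exp (-(2 * a))) := by
  set K := 1 + Real.log (4 / (1 - c)) * (4 / (1 - c)) / (1 - Real.exp (-(2 * a))) with hK
  have hq : 0 < 4 / (1 - c) := div_pos (by norm_num) (by linarith)
  set l := Real.log (4 / (1 - c)) / a with hl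
  have hal : a * l = Real.log (4 / (1 - c)) := by rw [hl]; field_simp
  -- the approximate points
  have step : ∀ T : ℝ, |l| + 1 ≤ T → ∃ m, Real.cosh (a * C.dd x m) ≤ K ∧
      C.dir m (C.gd x w T) = -C.dir m (C.gd x v T) := by
    intro T hT
    have hl1 := le_abs_self l
    have hT0 : 0 < T := by linarith [abs_nonneg l]
    set P := C.gd x w T with hP
    set Q := C.gd x v T with hQ
    have hxP : C.dd x P = T := by rw [hP, hw.dd_gd_zero, abs_of_pos hT0]
    have hxQ : C.dd x Q = T := by rw [hQ, hv.dd_gd_zero, abs_of_pos hT0]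
    have hD : T + T ≤ C.dd P Q + l := by
      have h1 := C.gromov_exp ha x P Q
      rw [hxP, hxQ, hP, hQ, hw.dir_gd_zero C hT0, hv.dir_gd_zero C hT0, real_inner_comm] at h1
      have h2 : Real.exp (a * (T + T)) ≤ Real.exp (a * (C.dd P Q + l)) := by
        rw [mul_add a (C.dd P Q), Real.exp_add (a * C.dd P Q), hal, Real.exp_log hq,
          ← mul_div_assoc, le_div_iff₀ (by linarith)]
        nlinarith [Real.exp_pos (a * (T + T))]
      exact le_of_mul_le_mul_left (Real.exp_le_exp.1 h2) ha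
    have hPx : C.dd P x = T := by rw [C.dd_comm, hxP]
    have hPQ : C.Un P (C.dir P Q) := C.un_dir fun h => by
      rw [h, C.dd_self] at hD
      linarith
    refine ⟨C.gd P (C.dir P Q) T, ?_, ?_⟩
    · have h1 := C.thin ha x P Q (l := l) (by linarith [abs_nonneg l]) (by linarith) (by linarith)
      rwa [hPx, hal, Real.exp_log hq] at h1
    · have h1 := hPQ.dir_gd' C hT0
      have h2 := hPQ.dir_gd C (show T < C.dd P Q by linarith)
      rw [C.gd_zero] at h1
      rw [C.gd_dir] at h2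
      rw [h1, h2]
  choose m hm1 hm2 using fun k : ℕ => step (k + (|l| + 1)) (by linarith [k.cast_nonneg (α := ℝ)])
  have hcd : Continuous fun y => Real.cosh (a * C.dd x y) :=
    Real.continuous_cosh.comp (continuous_const.mul (C.continuous_dd_right x))
  have hcpt : IsCompact {y | Real.cosh (a * C.dd x y) ≤ K} := by
    refine (C.isCompact_dd ha.le x (2 * K / a)).of_isClosed_subset
      (isClosed_le hcd continuous_const) fun y hy => ?_
    have h1 : Real.cosh (a * C.dd x y) ≤ K := hy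
    rw [Real.cosh_eq] at h1
    rw [mem_ofPred_eq, le_div_iff₀ ha]
    linarith [Real.add_one_le_exp (a * C.dd x y), Real.exp_pos (-(a * C.dd x y))]
  obtain ⟨m₀, hm₀, φ, hφ, hlim⟩ := hcpt.tendsto_subseq hm1
  have hT : Tendsto (fun k => (φ k : ℝ) + (|l| + 1)) atTop atTop :=
    tendsto_atTop_add_const_right _ _ (tendsto_natCast_atTop_atTop.comp hφ.tendsto_atTop)
  refine ⟨m₀, _, C.un_asy ha hv m₀, rfl, ?_, hm₀⟩
  exact tendsto_nhds_unique ((C.tendsto_dir_seq ha hv hlim hT).neg.congr fun k => (hm2 (φ k)).symm)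
    (C.tendsto_dir_seq ha hw hlim hT)

end Crest.Agent.N221.Cov
end
end

-- ▼ part N221/D/Defs
section

/-!
Row 221, block D (helper85): the boundary at infinity of the cover.

Boundary points are the unit vectors `ξ` of `Euc n` (the ray `t • ξ` from the base point `0`).
Everything is `0`-homogeneous in `ξ`, so "smooth on the boundary" is `ContDiffOn` off `0`.

* `W ξ y` unit vector at `y` pointing to `ξ`, `b ξ y` Busemann function (`b ξ 0 = 0`, `∇ b = -W`),
* `ep x v` end point of the geodesic `(x, v)`, `act g` boundary action of a deck map,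
  `be g` its Busemann cocycle: `b (act g ξ) (g y) = b ξ y - be g ξ`,
* `ft ξ η s` the point of the geodesic from `η` to `ξ` with `b ξ = -s`; `(ξ, η, s)` is the chart of
  the unit tangent bundle of the cover in which the flow is `s ↦ s + t` and
  `g (ξ, η, s) = (act g ξ, act g η, s + be g ξ)`,
* `cc ξ η = -(b ξ + b η)` on that geodesic; `cc (g ξ) (g η) = cc ξ η + be g ξ + be g η`.
-/

set_option autoImplicit false

open MeasureTheory Set Filter Topology
open scoped ContDiff RealInnerProductSpace ENNReal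
open Crest.GeometryTopology.Submanifold
open Crest.Agent.R241.DDefs Crest.Agent.R241.D2
open Crest.Agent.R208.J Crest.Agent.R208.L

noncomputable section

namespace Crest.Agent.N221

/-- pairs of different boundary points = oriented geodesics of the cover -/
def GG (n : ℕ) : Set (Euc n × Euc n) := {p | ‖p.1‖ = 1 ∧ ‖p.2‖ = 1 ∧ p.1 ≠ p.2}

/-- the open cone over `GG` -/
def GO (n : ℕ) : Set (Euc n × Euc n) :=
  {p | p.1 ≠ 0 ∧ p.2 ≠ 0 ∧ ‖p.1‖⁻¹ • p.1 ≠ ‖p.2‖⁻¹ • p.2}

namespace Cov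

variable {n N : ℕ} {κ : ℝ} {S : Set (Euc N)} {G : Geo n N κ S} (C : Cov G)

/-- unit vector at `y` pointing to the boundary point `ξ` -/
def W (ξ y : Euc n) : Euc N := C.asy 0 (C.dir 0 ξ) y

/-- Busemann function of `ξ` -/
def b (ξ y : Euc n) : ℝ := C.bus 0 (C.dir 0 ξ) y

/-- forward end point of the geodesic `(x, v)` -/
def ep (x : Euc n) (v : Euc N) : Euc n := C.ex 0 (C.asy x v 0)

/-- boundary action of a deck map -/
def act (g : Euc n → Euc n) (ξ : Euc n) : Euc n := C.ep (g 0) (C.dir 0 ξ)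

/-- Busemann cocycle -/
def be (g : Euc n → Euc n) (ξ : Euc n) : ℝ := -C.b (C.act g ξ) (g 0)

/-- the point of the geodesic from `η` to `ξ` with `b ξ = -s` -/
def ft (ξ η : Euc n) (s : ℝ) : Euc n :=
  Classical.epsilon fun x => C.W η x = -C.W ξ x ∧ C.b ξ x = -s

/-- the Gromov function `2 (ξ | η)₀` -/
def cc (ξ η : Euc n) : ℝ := -(C.b ξ (C.ft ξ η 0) + C.b η (C.ft ξ η 0))

/-- the deck map `g` translates the geodesic `(y, w)` by `l > 0` -/
structure Axis (g : Euc n → Euc n) (y : Euc n) (w : Euc N) (l : ℝ) : Prop where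
  deck : C.Deck g
  un : C.Un y w
  pos : 0 < l
  eq : g y = C.gd y w l
  vel : C.vel y w l = w

/-- `(ξ, η)` is a periodic pair: attracting and repelling fixed point of a deck map -/
def Per (g : Euc n → Euc n) (ξ η : Euc n) : Prop :=
  ∃ y w l, C.Axis g y w l ∧ ξ = C.ep y w ∧ η = C.ep y (-w)

end Cov

/-- dense set of bi-transitive vectors (from `En.main`, see `D/Dyn`) -/
def TrS : Prop := ∀ (n N : ℕ) (a : ℝ) (S : Set (Euc N)) (G : Geo n N (-(a ^ 2)) S),
  Hyp n N a S → US G ⊆ closure {z | z ∈ US G ∧ En.BiTrans (US G) (ph G) z}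

end Crest.Agent.N221
end
end

-- ▼ part N221/D/Bas

/-!
Row 221, block D: `W`, `b`, `ep`, `act`, `be` (everything is a two-line consequence of `C/Bdy`:
`asy_asy`, `bus_asy`, `asy_self`, `eq_asy`, `Deck.asy_eq`, `Deck.bus_eq`, `continuousOn_asy`).
Key identity: `dir 0 (ep x v) = asy x v 0` (`lg_ex`, `‖asy‖ = 1`).
-/

set_option autoImplicit false
set_option linter.unusedSectionVars false
set_option linter.unusedVariables false

open MeasureTheory Set Filter Topology
open scoped ContDiff RealInnerProductSpace ENNReal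
open Crest.GeometryTopology.Submanifold
open Crest.Agent.R241.DDefs Crest.Agent.R241.D2
open Crest.Agent.R208.J Crest.Agent.R208.L

noncomputable section

namespace Crest.Agent.N221.Cov

variable {n N : ℕ} {a : ℝ} {S : Set (Euc N)} {G : Geo n N (-(a ^ 2)) S} (C : Cov G)

variable {x y z ξ η : Euc n} {v w : Euc N} {g g' : Euc n → Euc n}

lemma bas_ne0 (hξ : ‖ξ‖ = 1) : ξ ≠ 0 := norm_ne_zero_iff.1 (by rw [hξ]; simp)
lemma un_dir0 (hξ : ξ ≠ 0) : C.Un 0 (C.dir 0 ξ) :=
  C.un_dir hξ.symm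
/-- `lg_zero`: `lg 0` is a linear isometry `A`, `ex 0 (A x) = x` -/
lemma gd_dir0 (hξ : ‖ξ‖ = 1) (t : ℝ) : C.gd 0 (C.dir 0 ξ) t = t • ξ := by
  obtain ⟨A, hA⟩ := C.lg_zero
  rw [gd, dir, hA, A.norm_map, hξ, inv_one, one_smul, ← map_smul, ← hA, C.ex_lg]
lemma dir0_smul {t : ℝ} (ht : 0 < t) (ξ : Euc n) : C.dir 0 (t • ξ) = C.dir 0 ξ := by
  obtain ⟨A, hA⟩ := C.lg_zero
  rw [dir, dir, hA, hA, map_smul, norm_smul, smul_smul, Real.norm_of_nonneg ht.le, mul_inv,
    mul_right_comm, inv_mul_cancel₀ ht.ne', one_mul]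
lemma inner_dir0 (hξ : ‖ξ‖ = 1) (hη : ‖η‖ = 1) : ⟪C.dir 0 ξ, C.dir 0 η⟫ = ⟪ξ, η⟫ := by
  obtain ⟨A, hA⟩ := C.lg_zero
  simp only [dir, hA, A.norm_map, hξ, hη, inv_one, one_smul, A.inner_map_map]
lemma W_smul {t : ℝ} (ht : 0 < t) (ξ y : Euc n) : C.W (t • ξ) y = C.W ξ y := by
  rw [W, C.dir0_smul ht, W]
lemma b_smul {t : ℝ} (ht : 0 < t) (ξ y : Euc n) : C.b (t • ξ) y = C.b ξ y := by
  rw [b, C.dir0_smul ht, b]
lemma act_smul {t : ℝ} (ht : 0 < t) (g : Euc n → Euc n) (ξ : Euc n) :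
    C.act g (t • ξ) = C.act g ξ := by
  rw [act, C.dir0_smul ht, act]
lemma be_smul {t : ℝ} (ht : 0 < t) (g : Euc n → Euc n) (ξ : Euc n) :
    C.be g (t • ξ) = C.be g ξ := by
  rw [be, C.act_smul ht, be]

lemma bas_cont_dir0 : ContinuousOn (C.dir 0) {ξ | ξ ≠ 0} := fun ξ hξ =>
  (ContinuousAt.comp (f := fun ξ => ((0 : Euc n), ξ)) (C.contDiffAt_dir (Ne.symm hξ)).continuousAt
    (Continuous.prodMk_right 0).continuousAt).continuousWithinAt
lemma bas_cont_tri : ContinuousOn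
    (fun p : Euc n × Euc n => ((0 : Euc n), C.dir 0 p.1, p.2)) {p | p.1 ≠ 0} :=
  continuousOn_const.prodMk
    ((C.bas_cont_dir0.comp continuousOn_fst fun _ hp => hp).prodMk continuousOn_snd)

variable (ha : 0 < a)
include ha

lemma bas_asy_self (hv : C.Un x v) : C.asy x v x = v := by
  simpa only [C.gd_zero, C.vel_zero] using C.asy_self ha hv 0

lemma un_W (hξ : ξ ≠ 0) (y : Euc n) : C.Un y (C.W ξ y) :=
  C.un_asy ha (C.un_dir0 hξ) y
lemma W_zero (hξ : ξ ≠ 0) : C.W ξ 0 = C.dir 0 ξ :=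
  C.bas_asy_self ha (C.un_dir0 hξ)
lemma b_zero (hξ : ξ ≠ 0) : C.b ξ 0 = 0 := by
  simpa only [b, C.gd_zero, neg_zero] using C.bus_gd ha (C.un_dir0 hξ) 0
lemma norm_ep (hv : C.Un x v) : ‖C.ep x v‖ = 1 := by
  rw [← C.dd_zero, dd, ep, C.lg_ex _ _ (C.un_asy ha hv 0).mem, (C.un_asy ha hv 0).norm]
lemma ep_ne_zero (hv : C.Un x v) : C.ep x v ≠ 0 :=
  norm_ne_zero_iff.1 (by rw [C.norm_ep ha hv]; simp)
lemma dir_ep (hv : C.Un x v) : C.dir 0 (C.ep x v) = C.asy x v 0 := by
  rw [dir, ep, C.lg_ex _ _ (C.un_asy ha hv 0).mem, (C.un_asy ha hv 0).norm, inv_one, one_smul]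
lemma W_ep (hv : C.Un x v) (y : Euc n) : C.W (C.ep x v) y = C.asy x v y := by
  rw [W, C.dir_ep ha hv, C.asy_asy ha hv]
lemma W_ep_self (hv : C.Un x v) : C.W (C.ep x v) x = v := by
  rw [C.W_ep ha hv, C.bas_asy_self ha hv]
lemma b_ep (hv : C.Un x v) (y : Euc n) : C.b (C.ep x v) y = C.bus x v y - C.bus x v 0 := by
  rw [b, C.dir_ep ha hv, C.bus_asy ha hv]
lemma ep_W (hξ : ‖ξ‖ = 1) (y : Euc n) : C.ep y (C.W ξ y) = ξ := by
  have h := C.un_dir0 (bas_ne0 hξ)
  rw [ep, W, C.asy_asy ha h, C.bas_asy_self ha h]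
  simpa only [gd, one_smul] using C.gd_dir0 hξ 1
lemma asy_W (hξ : ξ ≠ 0) (y z : Euc n) : C.asy y (C.W ξ y) z = C.W ξ z :=
  C.asy_asy ha (C.un_dir0 hξ) y z
lemma bus_W (hξ : ξ ≠ 0) (y z : Euc n) : C.bus y (C.W ξ y) z = C.b ξ z - C.b ξ y :=
  C.bus_asy ha (C.un_dir0 hξ) y z
lemma W_inj (hξ : ‖ξ‖ = 1) (hη : ‖η‖ = 1) (h : C.W ξ y = C.W η y) : ξ = η := by
  rw [← C.ep_W ha hξ y, h, C.ep_W ha hη]
lemma ep_inj (hv : C.Un x v) (hw : C.Un x w) (h : C.ep x v = C.ep x w) : v = w := by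
  rw [← C.W_ep_self ha hv, h, C.W_ep_self ha hw]
lemma ep_ne_neg (hv : C.Un x v) : C.ep x v ≠ C.ep x (-v) := fun h => by
  have h1 : (2 : ℝ) • v = 0 := by
    rw [two_smul]; exact add_eq_zero_iff_eq_neg.2 (C.ep_inj ha hv hv.neg h)
  have h2 := hv.norm
  rw [(smul_eq_zero.1 h1).resolve_left two_ne_zero, norm_zero] at h2
  exact zero_ne_one h2
lemma ep_gd (hv : C.Un x v) (t : ℝ) : C.ep (C.gd x v t) (C.vel x v t) = C.ep x v := by
  rw [ep, ← C.asy_self ha hv, C.asy_asy ha hv, ep]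
lemma ep_gd_neg (hv : C.Un x v) (t : ℝ) : C.ep (C.gd x v t) (-C.vel x v t) = C.ep x (-v) := by
  simpa only [C.gd_neg, C.vel_neg hv.mem, neg_neg] using C.ep_gd ha hv.neg (-t)
lemma W_gd (hξ : ξ ≠ 0) (y : Euc n) (s : ℝ) :
    C.W ξ (C.gd y (C.W ξ y) s) = C.vel y (C.W ξ y) s :=
  (C.vel_asy ha (C.un_dir0 hξ) y s).symm
lemma b_gd (hξ : ξ ≠ 0) (y : Euc n) (s : ℝ) : C.b ξ (C.gd y (C.W ξ y) s) = C.b ξ y - s :=
  C.bus_gd_asy ha (C.un_dir0 hξ) y s
lemma hasFDerivAt_b (hξ : ξ ≠ 0) (y : Euc n) :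
    HasFDerivAt (C.b ξ) (-(innerSL ℝ (C.W ξ y)).comp (fderiv ℝ C.pr y)) y :=
  C.hasFDerivAt_bus ha (C.un_dir0 hξ) y
lemma abs_b_sub_le (hξ : ξ ≠ 0) (y z : Euc n) : |C.b ξ y - C.b ξ z| ≤ C.dd y z :=
  C.abs_bus_sub_le ha (C.un_dir0 hξ) y z
/-- directions to far points of the ray from `y` to `ξ`, seen from `z` -/
lemma tendsto_W (hξ : ξ ≠ 0) (y z : Euc n) :
    Tendsto (fun t => C.dir z (C.gd y (C.W ξ y) t)) atTop (𝓝 (C.W ξ z)) :=
  C.asy_W ha hξ y z ▸ C.tendsto_asy ha (C.un_W ha hξ y) z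
lemma tendsto_b (hξ : ξ ≠ 0) (y z : Euc n) :
    Tendsto (fun t => C.dd z (C.gd y (C.W ξ y) t) - t) atTop (𝓝 (C.b ξ z - C.b ξ y)) :=
  C.bus_W ha hξ y z ▸ C.tendsto_bus ha (C.un_W ha hξ y) z

/-! continuity -/

lemma continuousOn_W : ContinuousOn (fun p : Euc n × Euc n => C.W p.1 p.2) {p | p.1 ≠ 0} :=
  (C.continuousOn_asy ha).comp (f := fun p : Euc n × Euc n => (0, C.dir 0 p.1, p.2))
    C.bas_cont_tri fun _ hp => C.un_dir0 hp
lemma continuousOn_b : ContinuousOn (fun p : Euc n × Euc n => C.b p.1 p.2) {p | p.1 ≠ 0} :=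
  (C.continuousOn_bus ha).comp (f := fun p : Euc n × Euc n => (0, C.dir 0 p.1, p.2))
    C.bas_cont_tri fun _ hp => C.un_dir0 hp
lemma continuousOn_ep :
    ContinuousOn (fun p : Euc n × Euc N => C.ep p.1 p.2) {p | C.Un p.1 p.2} := by
  have h := (C.continuousOn_asy ha).comp (f := fun p : Euc n × Euc N => (p.1, p.2, 0))
    (s := {p | C.Un p.1 p.2}) (by fun_prop) fun _ hp => hp
  exact C.ex_smooth.continuous.comp_continuousOn
    (f := fun p : Euc n × Euc N => (0, C.asy p.1 p.2 0)) (continuousOn_const.prodMk h)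
lemma continuousOn_act (hg : C.Deck g) : ContinuousOn (C.act g) {ξ | ξ ≠ 0} :=
  (C.continuousOn_ep ha).comp (f := fun ξ => (g 0, C.dir 0 ξ))
    (continuousOn_const.prodMk C.bas_cont_dir0) fun _ hξ => (Deck.un C hg).2 (C.un_dir0 hξ)

/-! deck maps -/

lemma norm_act (hg : C.Deck g) (hξ : ξ ≠ 0) : ‖C.act g ξ‖ = 1 :=
  C.norm_ep ha ((Deck.un C hg).2 (C.un_dir0 hξ))
lemma act_ne_zero (hg : C.Deck g) (hξ : ξ ≠ 0) : C.act g ξ ≠ 0 :=
  bas_ne0 (C.norm_act ha hg hξ)
lemma W_act (hg : C.Deck g) (hξ : ξ ≠ 0) (y : Euc n) : C.W (C.act g ξ) (g y) = C.W ξ y := by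
  rw [act, C.W_ep ha ((Deck.un C hg).2 (C.un_dir0 hξ)), Deck.asy_eq C hg (C.un_dir0 hξ), W]
lemma b_act (hg : C.Deck g) (hξ : ξ ≠ 0) (y : Euc n) :
    C.b (C.act g ξ) (g y) = C.b ξ y - C.be g ξ := by
  have h := (Deck.un C hg).2 (C.un_dir0 hξ)
  have h0 : C.bus 0 (C.dir 0 ξ) 0 = 0 := C.b_zero ha hξ
  rw [be, act, C.b_ep ha h, C.b_ep ha h, Deck.bus_eq C hg (C.un_dir0 hξ),
    Deck.bus_eq C hg (C.un_dir0 hξ), h0, b]
  ring
lemma act_ep (hg : C.Deck g) (hv : C.Un x v) : C.act g (C.ep x v) = C.ep (g x) v := by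
  have h := C.ep_ne_zero ha hv
  rw [← C.ep_W ha (C.norm_act ha hg h) (g x), C.W_act ha hg h, C.W_ep_self ha hv]
lemma act_eq_ep (hg : C.Deck g) (hξ : ξ ≠ 0) (y : Euc n) :
    C.act g ξ = C.ep (g y) (C.W ξ y) := by
  rw [← C.ep_W ha (C.norm_act ha hg hξ) (g y), C.W_act ha hg hξ]
lemma act_id (hξ : ‖ξ‖ = 1) : C.act id ξ = ξ :=
  (C.act_eq_ep ha C.deck_id (bas_ne0 hξ) 0).trans (C.ep_W ha hξ 0)
lemma act_comp (hg : C.Deck g) (hg' : C.Deck g') (hξ : ξ ≠ 0) :
    C.act (g ∘ g') ξ = C.act g (C.act g' ξ) :=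
  (C.act_ep ha hg ((Deck.un C hg').2 (C.un_dir0 hξ))).symm
lemma act_inj (hg : C.Deck g) (hξ : ‖ξ‖ = 1) (hη : ‖η‖ = 1) (h : C.act g ξ = C.act g η) :
    ξ = η :=
  C.W_inj ha (y := 0) hξ hη (by rw [← C.W_act ha hg (bas_ne0 hξ), h, C.W_act ha hg (bas_ne0 hη)])
lemma act_GG (hg : C.Deck g) (h : (ξ, η) ∈ GG n) : (C.act g ξ, C.act g η) ∈ GG n :=
  ⟨C.norm_act ha hg (bas_ne0 h.1), C.norm_act ha hg (bas_ne0 h.2.1),
    fun e => h.2.2 (C.act_inj ha hg h.1 h.2.1 e)⟩
omit ha in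
lemma Deck.iterate (hg : C.Deck g) (k : ℕ) : C.Deck g^[k] := by
  induction k with
  | zero => exact C.deck_id
  | succ k ih => exact Deck.comp C ih hg

end Crest.Agent.N221.Cov
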