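import Crest.Agent.N221.D.Bas
import Crest.Agent.N221.C.Loc
import Crest.Agent.N221.D.Chart
import Crest.Agent.N221.En.All
import Crest.Agent.N221.C.Ex

-- ▼ part N221/D/Axis
section

/-!
Row 221, block D: axes of deck maps, closing lemma, north-south dynamics.
-/

set_option autoImplicit false
set_option linter.unusedSectionVars false
set_option linter.unusedVariables false

open MeasureTheory Set Filter Topology
open scoped ContDiff RealInnerProductSpace ENNReal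
open Crest.GeometryTopology.Submanifold
open Crest.Agent.R241.DDefs Crest.Agent.R241.D2
open Crest.Agent.R208.J Crest.Agent.R208.L

noncomputable section

namespace Crest.Agent.N221.Cov

variable {n N : ℕ} {a : ℝ} {S : Set (Euc N)} {G : Geo n N (-(a ^ 2)) S} (C : Cov G)

variable {x y z ξ η : Euc n} {v w : Euc N} {g k : Euc n → Euc n} {l : ℝ}

lemma Axis.gd_add (h : C.Axis g y w l) (t : ℝ) : g (C.gd y w t) = C.gd y w (t + l) := by
  rw [← h.deck.gd_eq C h.un.mem, h.eq, add_comm, ← C.gd_add h.un.mem, h.vel]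
lemma Axis.vel_add (h : C.Axis g y w l) (t : ℝ) : C.vel y w (t + l) = C.vel y w t := by
  rw [add_comm, ← C.vel_add h.un.mem, h.vel, ← h.eq, h.deck.vel_eq]
lemma Axis.shift (h : C.Axis g y w l) (t : ℝ) : C.Axis g (C.gd y w t) (C.vel y w t) l :=
  ⟨h.deck, h.un.vel C t, h.pos, by rw [h.gd_add, C.gd_add h.un.mem],
    by rw [C.vel_add h.un.mem, h.vel_add]⟩
lemma Axis.iterate_gd (h : C.Axis g y w l) (j : ℕ) (t : ℝ) :
    g^[j] (C.gd y w t) = C.gd y w (t + j * l) := by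
  induction j with
  | zero => simp
  | succ j ih =>
    rw [Function.iterate_succ_apply', ih, h.gd_add]
    congr 1
    push_cast
    ring
lemma Axis.iterate_vel (h : C.Axis g y w l) (j : ℕ) (t : ℝ) :
    C.vel y w (t + j * l) = C.vel y w t := by
  induction j with
  | zero => simp
  | succ j ih =>
    rw [← ih, ← h.vel_add C (t + j * l)]
    congr 1
    push_cast
    ring
lemma Axis.iterate (h : C.Axis g y w l) (j : ℕ) : C.Axis g^[j + 1] y w ((j + 1) * l) := by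
  have h1 := h.iterate_gd C (j + 1) 0
  have h2 := h.iterate_vel C (j + 1) 0
  rw [C.gd_zero, zero_add] at h1
  rw [C.vel_zero, zero_add] at h2
  push_cast at h1 h2
  exact ⟨h.deck.iterate C _, h.un, by have := h.pos; positivity, h1, h2⟩
/-- the inverse translates the reversed geodesic -/
lemma Axis.inv (h : C.Axis g y w l) (hk : C.Deck k) (hkg : ∀ x, k (g x) = x) :
    C.Axis k y (-w) l := by
  have h1 := h.gd_add C (-l)
  have h2 := h.vel_add C (-l)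
  rw [neg_add_cancel, C.gd_zero] at h1
  rw [neg_add_cancel, C.vel_zero] at h2
  refine ⟨hk, h.un.neg C, h.pos, ?_, by rw [C.vel_neg h.un.mem, ← h2]⟩
  rw [C.gd_neg, ← hkg (C.gd y w (-l)), h1]
/-- conjugation -/
lemma Axis.conj (h : C.Axis g y w l) (hk : C.Deck k) {g' : Euc n → Euc n} (hg' : C.Deck g')
    (e : ∀ x, g' (k x) = k (g x)) : C.Axis g' (k y) w l :=
  ⟨hg', (hk.un C).2 h.un, h.pos, by rw [e, h.eq, hk.gd_eq C h.un.mem],
    by rw [hk.vel_eq, h.vel]⟩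
/-- downstairs the vector is periodic -/
lemma Axis.periodic (h : C.Axis g y w l) : ph G l (C.pr y, w) = (C.pr y, w) := by
  rw [ph, C.up_gd h.un.mem, ← h.eq, h.deck.pr_eq, h.vel]
/-- a periodic vector lifts to an axis (`g = dk y (gd y w l)`) -/
lemma exists_axis_of_periodic (hw : C.Un y w) (hl : 0 < l)
    (h : ph G l (C.pr y, w) = (C.pr y, w)) : ∃ g, C.Axis g y w l := by
  rw [ph, C.up_gd hw.mem] at h
  exact ⟨_, C.deck_dk (congrArg Prod.fst h).symm, hw, hl, C.dk_self _ _, congrArg Prod.snd h⟩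

omit C in
lemma norm_sub_sq_le {u w : Euc N} (hu : ‖u‖ ≤ 1) (hw : ‖w‖ ≤ 1) :
    ‖u - w‖ ^ 2 ≤ 2 * (1 - ⟪u, w⟫) := by
  rw [norm_sub_sq_real]
  nlinarith [norm_nonneg u, norm_nonneg w]

variable (ha : 0 < a)
include ha

lemma Axis.act_pos (h : C.Axis g y w l) : C.act g (C.ep y w) = C.ep y w := by
  rw [C.act_ep ha h.deck h.un, h.eq, ← C.ep_gd ha h.un l, h.vel]
lemma Axis.act_neg (h : C.Axis g y w l) : C.act g (C.ep y (-w)) = C.ep y (-w) := by
  rw [C.act_ep ha h.deck (h.un.neg C), h.eq, ← C.ep_gd_neg ha h.un l, h.vel]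
lemma Axis.be_pos (h : C.Axis g y w l) : C.be g (C.ep y w) = l := by
  have h0 := C.ep_ne_zero ha h.un
  have h1 := C.b_act ha h.deck h0 y
  have h2 := C.b_gd ha h0 y l
  rw [C.W_ep_self ha h.un, ← h.eq] at h2
  rw [h.act_pos C ha] at h1
  linarith
lemma Axis.be_neg (h : C.Axis g y w l) : C.be g (C.ep y (-w)) = -l := by
  have h0 := C.ep_ne_zero ha (h.un.neg C)
  have h1 := C.b_act ha h.deck h0 y
  have h2 := C.b_gd ha h0 y (-l)
  rw [C.W_ep_self ha (h.un.neg C), C.gd_neg, neg_neg, ← h.eq] at h2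
  rw [h.act_neg C ha] at h1
  linarith

/-- two applications of `gromov_exp` -/
lemma two_gromov (p P Q : Euc n) :
    (1 - ⟪C.dir p P, C.dir p Q⟫) * ‖C.dir P p - C.dir P Q‖ ^ 2 ≤
      32 * Real.exp (-(2 * a * C.dd p P)) := by
  have h1 := C.gromov_exp ha p P Q
  have h2 := C.gromov_exp ha P p Q
  have h3 := norm_sub_sq_le (C.norm_dir_le P p) (C.norm_dir_le P Q)
  have h4 : ⟪C.dir p P, C.dir p Q⟫ ≤ 1 := (real_inner_le_norm _ _).trans
    (mul_le_one₀ (C.norm_dir_le _ _) (norm_nonneg _) (C.norm_dir_le _ _))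
  have h5 : 0 ≤ 1 - ⟪C.dir P p, C.dir P Q⟫ := by nlinarith [sq_nonneg ‖C.dir P p - C.dir P Q‖]
  rw [C.dd_comm P p, mul_add, Real.exp_add] at h2
  rw [mul_add, Real.exp_add] at h1
  have e : Real.exp (-(2 * a * C.dd p P)) =
      (Real.exp (a * C.dd p P) * Real.exp (a * C.dd p P))⁻¹ := by
    rw [← Real.exp_add, ← Real.exp_neg]; congr 1; ring
  have p1 := Real.exp_pos (a * C.dd p P)
  have p2 := Real.exp_pos (a * C.dd p Q)
  have p3 := Real.exp_pos (a * C.dd P Q)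
  rw [e, ← div_eq_mul_inv, le_div_iff₀ (by positivity)]
  have h6 := mul_le_mul h1 h2 (by positivity) (by positivity)
  have h7 : (1 - ⟪C.dir p P, C.dir p Q⟫) * (1 - ⟪C.dir P p, C.dir P Q⟫) *
      (Real.exp (a * C.dd p P) * Real.exp (a * C.dd p P)) ≤ 16 := by
    refine le_of_mul_le_mul_right ?_ (mul_pos p2 p3)
    nlinarith
  have h8 := mul_le_mul_of_nonneg_left h3 (sub_nonneg.2 h4)
  nlinarith [mul_le_mul_of_nonneg_right h8 (mul_pos p1 p1).le]

lemma W_back (hw : C.Un y w) (hη : η ≠ 0) {T : ℝ} (hT : 0 < T) :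
    (1 + ⟪w, C.W η y⟫) * ‖C.W η (C.gd y w (-T)) - C.vel y w (-T)‖ ^ 2 ≤
      32 * Real.exp (-(2 * a * T)) := by
  have h1 := (((C.tendsto_W ha hη y (C.gd y w (-T))).sub_const (C.vel y w (-T))).norm.pow
    2).const_mul (1 + ⟪w, C.W η y⟫)
  refine le_of_tendsto h1 ((eventually_gt_atTop 0).mono fun s hs => ?_)
  have h2 := C.two_gromov ha y (C.gd y w (-T)) (C.gd y (C.W η y) s)
  have h3 := hw.dir_gd C (show -T < 0 by linarith)
  have h4 := hw.dir_gd' C (show -T < 0 by linarith)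
  rw [C.gd_zero] at h3 h4
  rw [C.vel_zero] at h4
  rwa [h3, h4, (C.un_W ha hη y).dir_gd_zero C hs, hw.dd_gd_zero, abs_neg, abs_of_pos hT,
    inner_neg_left, sub_neg_eq_add, norm_sub_rev] at h2

/-- quantitative NORTH-SOUTH dynamics, seen from the point `y` of the axis -/
lemma Axis.ns (h : C.Axis g y w l) (hη : η ≠ 0) (j : ℕ) :
    (1 + ⟪w, C.W η y⟫) * ‖C.W (C.act g^[j] η) y - w‖ ^ 2 ≤
      32 * Real.exp (-(2 * a * (j * l))) := by
  have h1 := C.W_act ha (h.deck.iterate C j) hη (C.gd y w (-(j * l)))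
  have h2 := h.iterate_vel C j (-(j * l))
  rw [h.iterate_gd, neg_add_cancel, C.gd_zero] at h1
  rw [neg_add_cancel, C.vel_zero] at h2
  rw [h1]
  rcases Nat.eq_zero_or_pos j with rfl | hj
  · have h3 := (C.un_W ha hη y).norm
    have h4 := h.un.norm
    have h5 := abs_real_inner_le_norm w (C.W η y)
    have h6 := norm_sub_sq_le h3.le h4.le
    rw [h3, h4, abs_le] at h5
    rw [real_inner_comm] at h6
    simp only [Nat.cast_zero, zero_mul, neg_zero, C.gd_zero, mul_zero, Real.exp_zero]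
    nlinarith [sq_nonneg ‖C.W η y - w‖]
  · have h3 := C.W_back ha h.un hη (T := j * l) (mul_pos (by exact_mod_cast hj) h.pos)
    rwa [← h2] at h3

lemma ep_near (hw : C.Un y w) {ε : ℝ} (hε : 0 < ε) :
    ∃ δ > 0, ∀ u, C.Un y u → ‖u - w‖ < δ → ‖C.ep y u - C.ep y w‖ < ε := by
  obtain ⟨δ, hδ, h⟩ := Metric.continuousWithinAt_iff.1 (C.continuousOn_ep ha (y, w) hw) ε hε
  refine ⟨δ, hδ, fun u hu h1 => ?_⟩
  rw [← dist_eq_norm] at h1 ⊢
  exact h (x := (y, u)) hu (by rwa [Prod.dist_eq, dist_self, max_eq_right dist_nonneg])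

/-- north-south dynamics: uniform convergence off a neighbourhood of the repelling point -/
lemma Axis.ns_unif (h : C.Axis g y w l) {δ ε : ℝ} (hδ : 0 < δ) (hε : 0 < ε) :
    ∀ᶠ j in atTop, ∀ η, ‖η‖ = 1 → δ ≤ ‖η - C.ep y (-w)‖ → ‖C.act g^[j] η - C.ep y w‖ < ε := by
  obtain ⟨ε', hε', h1⟩ := C.ep_near ha h.un hε
  obtain ⟨δ', hδ', h2⟩ := C.ep_near ha (h.un.neg C) hδ
  have h3 : Tendsto (fun j : ℕ => (j : ℝ) * l) atTop atTop :=
    tendsto_natCast_atTop_atTop.atTop_mul_const h.pos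
  filter_upwards [(BdyAux.tendsto_exp (show 0 < 2 * a by positivity) h3 32).eventually_lt_const
    (show 0 < δ' ^ 2 / 2 * ε' ^ 2 by positivity)] with j hj η hη hd
  have h0 : η ≠ 0 := norm_ne_zero_iff.1 (by rw [hη]; exact one_ne_zero)
  have hg := h.deck.iterate C j
  have h4 := C.un_W ha h0 y
  have h5 : δ' ≤ ‖C.W η y - -w‖ := not_lt.1 fun h6 => by
    have := h2 _ h4 h6
    rw [C.ep_W ha hη] at this
    linarith
  have h6 := norm_sub_sq_le h4.norm.le (h.un.neg C).norm.le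
  rw [inner_neg_right, real_inner_comm] at h6
  have h7 := pow_le_pow_left₀ hδ'.le h5 2
  have h8 := (h.ns C ha h0 j).trans_lt hj
  rw [← C.ep_W ha (C.norm_act ha hg h0) y]
  refine h1 _ (C.un_W ha (C.act_ne_zero ha hg h0) y) (lt_of_pow_lt_pow_left₀ 2 hε'.le ?_)
  refine lt_of_mul_lt_mul_left (lt_of_le_of_lt ?_ h8) (by positivity)
  exact mul_le_mul_of_nonneg_right (by linarith) (sq_nonneg _)

lemma Axis.ns_tendsto (h : C.Axis g y w l) (hη : ‖η‖ = 1) (hne : η ≠ C.ep y (-w)) :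
    Tendsto (fun j => C.act g^[j] η) atTop (𝓝 (C.ep y w)) := by
  refine Metric.tendsto_nhds.2 fun ε hε => ?_
  filter_upwards [h.ns_unif C ha (norm_pos_iff.2 (sub_ne_zero.2 hne)) hε] with j hj
  rw [dist_eq_norm]
  exact hj η hη le_rfl


lemma obtuse (p P Q : Euc n) (h : ⟪C.dir p P, C.dir p Q⟫ ≤ 0) :
    ‖C.dir P Q - C.dir P p‖ ≤ 6 * Real.exp (-(a * C.dd p P)) := by
  have h1 := C.two_gromov ha p P Q
  have e : Real.exp (-(2 * a * C.dd p P)) = Real.exp (-(a * C.dd p P)) ^ 2 := by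
    rw [← Real.exp_nat_mul]; congr 1; push_cast; ring
  rw [norm_sub_rev]
  refine le_of_pow_le_pow_left₀ two_ne_zero (by positivity) ?_
  nlinarith [sq_nonneg ‖C.dir P p - C.dir P Q‖, sq_nonneg (Real.exp (-(a * C.dd p P)))]

/-- CHAIN lemma: an almost straight broken geodesic `x, g x, g² x, …` keeps its direction. -/
lemma chain (hg : C.Deck g) (hR : 6 * Real.exp (-(a * C.dd x (g x))) ≤ 1 / 2)
    (hang : ⟪C.dir x (g x), C.dir (g x) x⟫ ≤ -(1 / 2)) (j : ℕ) :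
    ‖C.dir x (g^[j + 1] x) - C.dir x (g x)‖ ≤ 6 * Real.exp (-(a * C.dd x (g x))) ∧
    ‖C.dir (g^[j + 1] x) x - C.dir (g x) x‖ ≤ 6 * Real.exp (-(a * C.dd x (g x))) := by
  have key : ∀ u f r : Euc N, ‖u - f‖ ≤ 1 / 2 → ‖r‖ ≤ 1 → ⟪f, r⟫ ≤ -(1 / 2) → ⟪r, u⟫ ≤ 0 := by
    intro u f r h1 h2 h3
    have h4 := (real_inner_le_norm (u - f) r).trans (mul_le_mul h1 h2 (norm_nonneg _) (by norm_num))
    rw [inner_sub_left] at h4
    rw [real_inner_comm]
    linarith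
  induction j with
  | zero => simp only [zero_add, Function.iterate_one, sub_self, norm_zero]; constructor <;> positivity
  | succ j ih =>
    constructor
    · have h1 := C.obtuse ha (g x) x (g^[j + 1 + 1] x) (by
        rw [Function.iterate_succ_apply' g (j + 1), hg.dir_eq C x]
        exact key _ _ _ (ih.1.trans hR) (C.norm_dir_le _ _) hang)
      rwa [C.dd_comm] at h1
    · have hj := hg.iterate C (j + 1)
      have h1 := C.obtuse ha (g^[j + 1] x) (g^[j + 1 + 1] x) x (by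
        rw [Function.iterate_succ_apply g (j + 1), hj.dir_eq C x]
        exact key _ _ _ (ih.2.trans hR) (C.norm_dir_le _ _) (by rwa [real_inner_comm]))
      rw [Function.iterate_succ_apply g (j + 1)] at h1 ⊢
      rwa [hj.dir_eq, hj.dd_eq] at h1

/-- equality in the triangle inequality -/
lemma between {P p Q : Euc n} (h : C.dd P p + C.dd p Q ≤ C.dd P Q) (h1 : P ≠ p) (h2 : p ≠ Q) :
    C.dir p Q = -C.dir p P := by
  have h3 : SameRay ℝ (C.lg P p) (C.lg P Q - C.lg P p) := by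
    rw [sameRay_iff_norm_add, add_sub_cancel]
    have := C.lg_sub_le ha.le P p Q
    rw [norm_sub_rev] at this
    exact le_antisymm (norm_le_insert' _ _) ((add_le_add le_rfl this).trans h)
  obtain ⟨r, hr, e⟩ := h3.exists_nonneg_left (norm_ne_zero_iff.1 (C.dd_pos h1).ne')
  have hu := C.un_dir h1
  have hA := C.dd_pos h1
  have hQ : Q = C.gd P (C.dir P p) ((1 + r) * C.dd P p) := by
    rw [gd, mul_smul, ← C.lg_eq_dir, add_smul, one_smul, e, add_sub_cancel, C.ex_lg]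
  have hr' : 0 < r := lt_of_le_of_ne hr fun h0 => h2 (by rw [hQ, ← h0, add_zero, one_mul, C.gd_dir])
  have h4 := hu.dir_gd C (show C.dd P p < (1 + r) * C.dd P p by nlinarith)
  rw [C.gd_dir, ← hQ, C.vel_dir] at h4
  exact h4

lemma Axis.tendsto_dir (h : C.Axis g y w l) (x : Euc n) :
    Tendsto (fun j => C.dir x (g^[j] x)) atTop (𝓝 (C.W (C.ep y w) x)) := by
  have h3 : Tendsto (fun j : ℕ => (j : ℝ) * l) atTop atTop :=
    tendsto_natCast_atTop_atTop.atTop_mul_const h.pos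
  have h1 := (C.tendsto_asy ha h.un x).comp h3
  have h2 : Tendsto (fun j : ℕ => C.dir x (g^[j] x) - C.dir x (C.gd y w (j * l))) atTop (𝓝 0) := by
    refine squeeze_zero_norm (fun j => ?_)
      (BdyAux.tendsto_exp ha ((BdyAux.tendsto_sub (2 * C.dd y x)).comp h3) 3)
    refine C.dir_sub_le ha _ _ _ ?_
    have h4 := h.iterate_gd C j 0
    rw [C.gd_zero, zero_add] at h4
    have h5 := C.le_dd_gd ha h.un x (j * l)
    have h6 := C.dd_triangle ha.le x (g^[j] x) (C.gd y w (j * l))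
    have h7 : C.dd (g^[j] x) (C.gd y w (j * l)) = C.dd y x := by
      rw [← h4, (h.deck.iterate C j).dd_eq, C.dd_comm]
    simp only [Function.comp]
    linarith
  rw [C.W_ep ha h.un]
  simpa using h2.add h1

variable (H : Hyp n N a S)
include H

/-- the displacement function has a minimum -/
lemma exists_min (hg : C.Deck g) : ∃ y, ∀ z, C.dd y (g y) ≤ C.dd z (g z) := by
  obtain ⟨D, hD0, hD⟩ := C.exists_deck
  set L := C.dd 0 (g 0)
  let F := {z | (C.pr z = C.pr 0 ∧ C.dd 0 z ≤ D + L + D) ∧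
    ∃ k, C.Deck k ∧ ∀ y, C.dk 0 z (k y) = k (g y)}
  have hK : IsCompact (F ×ˢ Metric.closedBall (0 : Euc n) D) :=
    ((C.finite_fibre H 0 0 _).subset fun z hz => hz.1).isCompact.prod (isCompact_closedBall _ _)
  have hf : Continuous fun p : Euc n × Euc n => C.dd p.2 (C.dk 0 p.1 p.2) :=
    C.cont_dd continuous_snd (C.ex_smooth.continuous.comp
      (f := fun p : Euc n × Euc n => (p.1, C.lg 0 p.2))
      (continuous_fst.prodMk ((C.contDiff_lg 0).continuous.comp continuous_snd)))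
  have key : ∀ z, C.dd z (g z) ≤ L → ∃ p ∈ F ×ˢ Metric.closedBall (0 : Euc n) D,
      C.dd p.2 (C.dk 0 p.1 p.2) = C.dd z (g z) := by
    intro z hz
    obtain ⟨k, hk, hkz⟩ := hD z
    obtain ⟨k', hk', e1, e2⟩ := hk.inv
    have hg' := hk.comp C (hg.comp C hk')
    have e3 : C.dk 0 ((k ∘ g ∘ k') 0) = k ∘ g ∘ k' :=
      (C.deck_dk (hg'.pr_eq 0).symm).ext C hg' (C.dk_self _ _)
    have e4 : ∀ y, (k ∘ g ∘ k') (k y) = k (g y) := fun y => by simp only [Function.comp, e1]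
    refine ⟨((k ∘ g ∘ k') 0, k z), ⟨⟨⟨hg'.pr_eq 0, ?_⟩, k, hk, fun y => by rw [e3, e4]⟩,
      mem_closedBall_zero_iff.2 hkz⟩, by rw [e3, e4, hk.dd_eq]⟩
    have t1 := C.dd_triangle ha.le 0 (k z) ((k ∘ g ∘ k') 0)
    have t2 := C.dd_triangle ha.le (k z) ((k ∘ g ∘ k') (k z)) ((k ∘ g ∘ k') 0)
    rw [hg'.dd_eq, e4, hk.dd_eq, C.dd_comm (k z) 0] at t2
    rw [C.dd_zero (k z)] at t1 t2
    linarith
  obtain ⟨p0, hp0, -⟩ := key 0 le_rfl
  obtain ⟨p, hp, hm⟩ := hK.exists_isMinOn ⟨p0, hp0⟩ hf.continuousOn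
  obtain ⟨k, hk, e⟩ := hp.1.2
  obtain ⟨y, hy⟩ := hk.bij.2 p.2
  have h1 : ∀ z, C.dd z (g z) ≤ L → C.dd y (g y) ≤ C.dd z (g z) := fun z hz => by
    obtain ⟨q, hq, e1⟩ := key z hz
    rw [← e1, ← hk.dd_eq C y, ← e, hy]
    exact hm hq
  exact ⟨y, fun z => (le_total _ L).elim (h1 z) fun hz => (h1 0 le_rfl).trans hz⟩

/-- every deck map `g ≠ id` has an axis: minimise the displacement `dd y (g y)`. -/
lemma exists_axis (hg : C.Deck g) (hx : g x ≠ x) : ∃ y w l, C.Axis g y w l := by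
  obtain ⟨y, hy⟩ := C.exists_min ha H hg
  have h1 : y ≠ g y := fun h => hx (congrFun (hg.ext C C.deck_id h.symm) x)
  have hu := C.un_dir h1
  have hl := C.dd_pos h1
  refine ⟨y, _, _, hg, hu, hl, (C.gd_dir _ _).symm, ?_⟩
  set w := C.dir y (g y)
  set l := C.dd y (g y)
  have e : g y = C.gd y w l := (C.gd_dir _ _).symm
  have d1 : C.dd (C.gd y w (l / 2)) (g y) = l / 2 := by
    rw [e, hu.dd_gd, abs_of_pos (by linarith)]; ring
  have d2 : C.dd (g y) (g (C.gd y w (l / 2))) = l / 2 := by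
    rw [hg.dd_eq, hu.dd_gd_zero, abs_of_pos (by linarith)]
  have h2 := C.between ha (P := C.gd y w (l / 2)) (p := g y) (Q := g (C.gd y w (l / 2)))
    (by linarith [hy (C.gd y w (l / 2))])
    (fun h => by rw [h, C.dd_self] at d1; linarith) (fun h => by rw [← h, C.dd_self] at d2; linarith)
  rw [hg.dir_eq, hu.dir_gd_zero C (half_pos hl), e, hu.dir_gd' C (half_lt_self hl), neg_neg] at h2
  exact h2.symm

/-- CLOSING LEMMA -/
lemma closing (hg : C.Deck g) (hR : 6 * Real.exp (-(a * C.dd x (g x))) ≤ 1 / 2)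
    (hang : ⟪C.dir x (g x), C.dir (g x) x⟫ ≤ -(1 / 2)) : ∃ y w l, C.Axis g y w l ∧
      ‖C.W (C.ep y w) x - C.dir x (g x)‖ ≤ 6 * Real.exp (-(a * C.dd x (g x))) ∧
      ‖C.W (C.ep y (-w)) x - C.dir (g x) x‖ ≤ 6 * Real.exp (-(a * C.dd x (g x))) := by
  obtain ⟨y, w, l, h⟩ := C.exists_axis ha H hg (x := x) fun e => by
    rw [e, C.dd_self, mul_zero, neg_zero, Real.exp_zero] at hR
    linarith
  obtain ⟨k, hk, e1, e2⟩ := hg.inv
  refine ⟨y, w, l, h, le_of_tendsto' (((h.tendsto_dir C ha x).comp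
    (tendsto_add_atTop_nat 1)).sub_const _).norm fun j => (C.chain ha hg hR hang j).1,
    le_of_tendsto' ((((h.inv C hk e1).tendsto_dir C ha x).comp
    (tendsto_add_atTop_nat 1)).sub_const _).norm fun j => ?_⟩
  have h1 := (hg.iterate C (j + 1)).dir_eq C x (k^[j + 1] x)
  rw [Function.RightInverse.iterate e2 (j + 1) x] at h1
  simp only [Function.comp]
  rw [← h1]
  exact (C.chain ha hg hR hang j).2

end Crest.Agent.N221.Cov
end
end

-- ▼ part N221/D/Dyn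

/-!
Row 221, block D: duality, density of periodic pairs, minimality, dense orbits.
-/

set_option autoImplicit false
set_option linter.unusedSectionVars false
set_option linter.unusedVariables false

open MeasureTheory Set Filter Topology
open scoped ContDiff RealInnerProductSpace ENNReal
open Crest.GeometryTopology.Submanifold
open Crest.Agent.R241.DDefs Crest.Agent.R241.D2
open Crest.Agent.R208.J Crest.Agent.R208.L

noncomputable section

namespace Crest.Agent.N221.Cov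

variable {n N : ℕ} {a : ℝ} {S : Set (Euc N)} {G : Geo n N (-(a ^ 2)) S} (C : Cov G)

variable {x y z ξ η : Euc n} {v w : Euc N} {g : Euc n → Euc n}

theorem _root_.Crest.Agent.N221.trS (hSys : SysS) (hVol : VolS) (hLps : LpsS) : TrS :=
  fun n N a S G H => (En.main _ (US G) (ph G) (mu G) (tau G) (hSys n N a S G H)
    (hVol n N a S G H).1 (hVol n N a S G H).2 (hLps n N a S G H)).2.2

variable (H : Hyp n N a S)
include H

/-- lifting closeness (`exists_r0` (ii) + `deck_dk`): a unit vector downstairs close to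
`(pr x, v)` has a lift close to `x` -/
lemma lift_near : ∃ r0 > 0, ∀ x y, ‖C.pr x - C.pr y‖ ≤ r0 →
    ∃ g, C.Deck g ∧ C.dd x (g y) ≤ 2 * ‖C.pr x - C.pr y‖ := by
  obtain ⟨r0, h0, -, h⟩ := C.exists_r0 H
  refine ⟨r0, h0, fun x y hxy => ?_⟩
  obtain ⟨y', e, hd⟩ := h x _ (C.pr_mem y) hxy
  exact ⟨C.dk y y', C.deck_dk e.symm, by rwa [C.dk_self]⟩

omit C in
/-- the sphere has three points -/
lemma dyn_third (ξ η : Euc n) : ∃ ζ : Euc n, ‖ζ‖ = 1 ∧ ζ ≠ ξ ∧ ζ ≠ η := by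
  let f : Fin 3 → Euc n := fun i => EuclideanSpace.single (Fin.castLE H.hn i) 1
  have inj : Function.Injective f := fun i j e => by
    by_contra hne
    have := congrArg (fun u : Euc n => u (Fin.castLE H.hn i)) e
    simp [f, hne] at this
  by_contra hc
  push Not at hc
  have h : ∀ i, f i = ξ ∨ f i = η := fun i => or_iff_not_imp_left.2 (hc _ (by simp [f]))
  rcases h 0 with h0 | h0 <;> rcases h 1 with h1 | h1 <;> rcases h 2 with h2 | h2 <;>
    first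
    | exact absurd (inj (h0.trans h1.symm)) (by decide)
    | exact absurd (inj (h0.trans h2.symm)) (by decide)
    | exact absurd (inj (h1.trans h2.symm)) (by decide)

/-- continuity of the end point -/
lemma dyn_ep_near (hv : C.Un x v) {ε : ℝ} (hε : 0 < ε) : ∃ δ > 0, ∀ y u, C.Un y u → ‖y - x‖ < δ →
    ‖u - v‖ < δ → ‖C.ep y u - C.ep x v‖ < ε := by
  obtain ⟨δ, δ0, h⟩ := Metric.continuousWithinAt_iff.1 (C.continuousOn_ep H.a_pos (x, v) hv) ε hε
  refine ⟨δ, δ0, fun y u hu h1 h2 => ?_⟩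
  rw [← dist_eq_norm] at h1 h2 ⊢
  exact h (x := (y, u)) hu (max_lt h1 h2)

/-- points near the far end of a nearby geodesic are seen in a nearby direction -/
lemma dyn_near_dir (hv : C.Un x v) {ε : ℝ} (hε : 0 < ε) : ∃ e > 0, e ≤ 1 ∧ ∃ T0 : ℝ,
    ∀ x1 v1 T P, C.Un x1 v1 → C.dd x x1 < e → ‖v - v1‖ < e → T0 ≤ T →
      C.dd P (C.gd x1 v1 T) ≤ 1 → ‖C.dir x P - v‖ < ε := by
  have ha := H.a_pos
  obtain ⟨δ, δ0, h⟩ := Metric.continuousWithinAt_iff.1 (C.continuousOn_asy ha (x, v, x) hv)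
    (ε / 3) (by positivity)
  obtain ⟨T0, hT0⟩ := eventually_atTop.1 (((BdyAux.tendsto_exp ha (BdyAux.tendsto_sub 2) 3).eventually_lt_const
    (by positivity : 0 < ε / 3)).and (eventually_ge_atTop 2))
  refine ⟨min δ 1, by positivity, min_le_right _ _, T0, fun x1 v1 T P h1 h2 h3 hT hP => ?_⟩
  obtain ⟨b1, b2⟩ := hT0 T hT
  rw [lt_min_iff] at h2 h3
  have e0 : C.asy x v x = v := by simpa [C.gd_zero, C.vel_zero] using C.asy_self ha hv 0
  have c1 : ‖C.asy x1 v1 x - v‖ < ε / 3 := by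
    have := h (x := (x1, v1, x)) h1 (max_lt (by
      rw [dist_comm, dist_eq_norm]; exact (C.norm_sub_le_dd ha.le _ _).trans_lt h2.1)
      (max_lt (by rw [dist_comm, dist_eq_norm]; exact h3.1) (by rwa [dist_self])))
    rwa [dist_eq_norm, e0] at this
  have d1 : C.dd x1 x < 1 := by rw [C.dd_comm]; exact h2.2
  have c2 := (C.asy_rate ha h1 x (t := T) (by linarith)).trans_lt
    (lt_of_le_of_lt (mul_le_mul_of_nonneg_left (Real.exp_le_exp.2 (by nlinarith)) (by norm_num)) b1)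
  have d2 := C.le_dd_gd ha h1 x T
  have d3 := C.dd_triangle ha.le x P (C.gd x1 v1 T)
  have c3 := (C.dir_sub_le ha x P (C.gd x1 v1 T) (L := T - 2) (by linarith)).trans_lt b1
  have := norm_sub_le_norm_sub_add_norm_sub (C.dir x P) (C.dir x (C.gd x1 v1 T)) v
  have := norm_sub_le_norm_sub_add_norm_sub (C.dir x (C.gd x1 v1 T)) (C.asy x1 v1 x) v
  linarith

/-- a bi-transitive vector upstairs: the deck translates of the geodesic `(x₀, v₀)` come close to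
every `(x, v)` at arbitrarily large positive and negative times -/
lemma exists_trans (hT : TrS) : ∃ x₀ v₀, C.Un x₀ v₀ ∧ ∀ x v, C.Un x v → ∀ ε > 0, ∀ R : ℝ,
    (∃ g t, C.Deck g ∧ R ≤ t ∧ C.dd x (g (C.gd x₀ v₀ t)) < ε ∧ ‖v - C.vel x₀ v₀ t‖ < ε) ∧
    (∃ g t, C.Deck g ∧ t ≤ -R ∧ C.dd x (g (C.gd x₀ v₀ t)) < ε ∧ ‖v - C.vel x₀ v₀ t‖ < ε) := by
  obtain ⟨ζ, -, h0, -⟩ := dyn_third H 0 0
  obtain ⟨q, hq, hb⟩ := Set.Nonempty.of_closure ⟨_, hT n N a S G H (C.un_dir h0)⟩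
  obtain ⟨x₀, e, hu⟩ := C.exists_un hq
  obtain ⟨r0, h0, hl⟩ := C.lift_near H
  refine ⟨x₀, q.2, hu, fun x v hv ε hε R => ?_⟩
  have key : ∀ t, dist (ph G t q) (C.pr x, v) < min r0 (ε / 2) →
      ∃ g, C.Deck g ∧ C.dd x (g (C.gd x₀ q.2 t)) < ε ∧ ‖v - C.vel x₀ q.2 t‖ < ε := fun t ht => by
    rw [ph, show q = (C.pr x₀, q.2) from Prod.ext e.symm rfl, C.up_gd (hu.mem C), dist_comm,
      Prod.dist_eq, max_lt_iff, lt_min_iff, lt_min_iff, dist_eq_norm, dist_eq_norm] at ht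
    obtain ⟨g, hg, hd⟩ := hl x _ ht.1.1.le
    exact ⟨g, hg, by linarith [ht.1.2], by linarith [ht.2.2]⟩
  obtain ⟨⟨t, h1, h2⟩, t', h3, h4⟩ := hb _ hv (min r0 (ε / 2)) (by positivity) R
  exact ⟨(key t h2).imp fun g h => ⟨t, h.1, h1, h.2⟩, (key t' h4).imp fun g h => ⟨t', h.1, h3, h.2⟩⟩

/-- DUALITY.  From `exists_trans`: `(x', v') = g₁ (geodesic at time t₁ ≤ 0)` and
`g₂ (geodesic at time t₂ ≥ R')` are both close to `(x, v)`; `g = g₁ ∘ g₂⁻¹`, `T = t₂ - t₁`: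
`dd (g x) (gd x' v' T) < ε'`, `‖vel x' v' T - v‖ < ε'`. -/
lemma dual (hT : TrS) (hv : C.Un x v) {ε : ℝ} (hε : 0 < ε) (R : ℝ) : ∃ g, C.Deck g ∧
    R ≤ C.dd x (g x) ∧ ‖C.dir x (g x) - v‖ < ε ∧ ‖C.dir (g x) x + v‖ < ε := by
  have ha := H.a_pos
  obtain ⟨x₀, v₀, hu, h⟩ := C.exists_trans H hT
  obtain ⟨e1, p1, l1, T1, n1⟩ := C.dyn_near_dir H hv hε
  obtain ⟨e2, p2, l2, T2, n2⟩ := C.dyn_near_dir H (hv.neg C) hε
  obtain ⟨⟨g2, t2, hg2, ht2, d2, w2⟩, -⟩ :=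
    h x v hv _ (lt_min p1 p2) (max (max T1 T2) (max (R + 2) 0))
  obtain ⟨-, g1, t1, hg1, ht1, d1, w1⟩ := h x v hv _ (lt_min p1 p2) 0
  simp only [max_le_iff, lt_min_iff, neg_zero] at ht2 d2 w2 ht1 d1 w1
  obtain ⟨k1, hk1, -, i1⟩ := hg1.inv C
  obtain ⟨k2, hk2, -, i2⟩ := hg2.inv C
  have u1 := (hg1.un C).2 (hu.vel C t1)
  have u2 := (hg2.un C).2 ((hu.vel C t2).neg C)
  have q1 : C.gd (g1 (C.gd x₀ v₀ t1)) (C.vel x₀ v₀ t1) (t2 - t1) = g1 (C.gd x₀ v₀ t2) := by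
    rw [hg1.gd_eq C ((hu.vel C t1).mem C), C.gd_add (hu.mem C), add_sub_cancel]
  have q2 : C.gd (g2 (C.gd x₀ v₀ t2)) (-C.vel x₀ v₀ t2) (t2 - t1) = g2 (C.gd x₀ v₀ t1) := by
    rw [C.gd_neg, hg2.gd_eq C ((hu.vel C t2).mem C), C.gd_add (hu.mem C), neg_sub, add_sub_cancel]
  have c1 : C.dd (g1 (k2 x)) (g1 (C.gd x₀ v₀ t2)) ≤ 1 := by
    rw [hg1.dd_eq C, ← hg2.dd_eq C, i2]; linarith [d2.1]
  have c2 : C.dd (g2 (k1 x)) (g2 (C.gd x₀ v₀ t1)) ≤ 1 := by
    rw [hg2.dd_eq C, ← hg1.dd_eq C, i1]; linarith [d1.1]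
  refine ⟨g1 ∘ k2, hg1.comp C hk2, ?_, n1 _ _ (t2 - t1) _ u1 d1.1 w1.1 (by linarith [ht2.1.1])
    (by rw [q1]; exact c1), ?_⟩
  · have b1 := C.le_dd_gd ha u1 x (t2 - t1)
    have b2 := C.dd_triangle ha.le x (g1 (k2 x)) (g1 (C.gd x₀ v₀ t2))
    rw [q1, C.dd_comm] at b1
    change R ≤ C.dd x (g1 (k2 x))
    linarith [d1.1, ht2.2.1]
  · have e : C.dir ((g1 ∘ k2) x) x = C.dir x (g2 (k1 x)) := by
      conv_lhs => rw [Function.comp, ← i1 x, hg1.dir_eq C, ← hg2.dir_eq C, i1, i2]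
    rw [e, ← sub_neg_eq_add]
    exact n2 _ _ (t2 - t1) _ u2 d2.2 (by rw [neg_sub_neg, norm_sub_rev]; exact w2.2)
      (by linarith [ht2.1.2]) (by rw [q2]; exact c2)

/-- PERIODIC PAIRS ARE DENSE in `GG` (`dual` at `x = ft ξ η 0`, `v = W ξ x`, `closing`, continuity
of `ep x ·`, `ep_W`) -/
lemma dense_per (hT : TrS) (h : (ξ, η) ∈ GG n) {ε : ℝ} (hε : 0 < ε) :
    ∃ g ξ' η', C.Per g ξ' η' ∧ ‖ξ' - ξ‖ < ε ∧ ‖η' - η‖ < ε := by
  have ha := H.a_pos
  obtain ⟨e1, e2⟩ := C.ep_ft ha h 0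
  have hv := C.un_W ha (GG_sub h).1 (C.ft ξ η 0)
  generalize C.W ξ (C.ft ξ η 0) = v at e1 e2 hv
  generalize C.ft ξ η 0 = x at e1 e2 hv
  obtain ⟨δ1, p1, n1⟩ := C.dyn_ep_near H hv hε
  obtain ⟨δ2, p2, n2⟩ := C.dyn_ep_near H (hv.neg C) hε
  obtain ⟨δ, δ0, b1, b2, b3⟩ : ∃ δ : ℝ, 0 < δ ∧ 2 * δ ≤ δ1 ∧ 2 * δ ≤ δ2 ∧ 2 * δ ≤ 1 :=
    ⟨min δ1 (min δ2 1) / 2, by positivity, by linarith [min_le_left δ1 (min δ2 1)],
      by linarith [min_le_right δ1 (min δ2 1), min_le_left δ2 1],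
      by linarith [min_le_right δ1 (min δ2 1), min_le_right δ2 1]⟩
  obtain ⟨R, hR⟩ := eventually_atTop.1 (((BdyAux.tendsto_exp ha tendsto_id 6).eventually_lt_const
    δ0).and (eventually_gt_atTop 0))
  obtain ⟨g, hg, d1, d2, d3⟩ := C.dual H hT hv δ0 R
  obtain ⟨c1, c2⟩ := hR _ d1
  rw [id] at c1
  have hne : x ≠ g x := fun e => by rw [← e, C.dd_self] at c2; exact lt_irrefl _ c2
  have hang : ⟪C.dir x (g x), C.dir (g x) x⟫ ≤ -(1 / 2) := by
    have f1 := norm_add_sq_real (C.dir x (g x)) (C.dir (g x) x)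
    have f2 := norm_add_le (C.dir x (g x) - v) (C.dir (g x) x + v)
    rw [sub_add_add_cancel] at f2
    rw [C.norm_dir hne, C.norm_dir hne.symm] at f1
    nlinarith [norm_nonneg (C.dir x (g x) + C.dir (g x) x)]
  obtain ⟨y, w, l, hA, f1, f2⟩ := C.closing ha H hg (by linarith) hang
  have g1 := n1 x _ (C.un_W ha (C.ep_ne_zero ha hA.un) x) (by simpa using p1) (by
    linarith [norm_sub_le_norm_sub_add_norm_sub (C.W (C.ep y w) x) (C.dir x (g x)) v])
  have g2 := n2 x _ (C.un_W ha (C.ep_ne_zero ha (hA.un.neg C)) x) (by simpa using p2) (by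
    rw [← sub_neg_eq_add] at d3
    linarith [norm_sub_le_norm_sub_add_norm_sub (C.W (C.ep y (-w)) x) (C.dir (g x) x) (-v)])
  rw [C.ep_W ha (C.norm_ep ha hA.un), e1] at g1
  rw [C.ep_W ha (C.norm_ep ha (hA.un.neg C)), e2] at g2
  exact ⟨g, _, _, ⟨y, w, l, hA, rfl, rfl⟩, g1, g2⟩

lemma Per.GG (h : C.Per g ξ η) : (ξ, η) ∈ GG n := by
  obtain ⟨y, w, l, hA, rfl, rfl⟩ := h
  exact C.ep_GG H.a_pos hA.un
/-- every point of the geodesic of a periodic pair is on the axis -/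
lemma Per.axis (h : C.Per g ξ η) : ∃ l, ∀ s,
    C.Axis g (C.ft ξ η s) (C.W ξ (C.ft ξ η s)) l := by
  have ha := H.a_pos
  have hO := GG_sub (h.GG C H)
  obtain ⟨y, w, l, hA, rfl, rfl⟩ := h
  refine ⟨l, fun s => ?_⟩
  have e1 := C.gd_ft ha hO (-C.b (C.ep y w) y) (s + C.b (C.ep y w) y)
  have e2 := C.vel_ft ha hO (-C.b (C.ep y w) y) (s + C.b (C.ep y w) y)
  rw [C.ft_ep ha hA.un, C.W_ep_self ha hA.un, neg_add_cancel_comm_assoc] at e1 e2
  rw [← e2, ← e1]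
  exact hA.shift C _
lemma Per.symm (h : C.Per g ξ η) : ∃ k, C.Per k η ξ ∧ (∀ x, k (g x) = x) ∧ ∀ x, g (k x) = x := by
  obtain ⟨y, w, l, hA, rfl, rfl⟩ := h
  obtain ⟨k, hk, i1, i2⟩ := hA.deck.inv C
  exact ⟨k, ⟨y, -w, l, hA.inv C hk i1, rfl, by rw [neg_neg]⟩, i1, i2⟩
lemma Per.act (h : C.Per g ξ η) {k : Euc n → Euc n} (hk : C.Deck k) :
    ∃ g', C.Per g' (C.act k ξ) (C.act k η) := by
  obtain ⟨y, w, l, hA, rfl, rfl⟩ := h
  obtain ⟨k', hk', i1, -⟩ := hk.inv C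
  exact ⟨k ∘ g ∘ k', k y, w, l, hA.conj C hk (hk.comp C (hA.deck.comp C hk'))
    (fun x => by simp only [Function.comp, i1]), C.act_ep H.a_pos hk hA.un,
    C.act_ep H.a_pos hk (hA.un.neg C)⟩

/-- periodic vectors are dense upstairs (`dense_per`, `continuousOn_ft`, `continuousOn_W`) -/
lemma dense_axis (hT : TrS) (hv : C.Un x v) {ε : ℝ} (hε : 0 < ε) :
    ∃ g y w l, C.Axis g y w l ∧ ‖y - x‖ < ε ∧ ‖w - v‖ < ε := by
  have ha := H.a_pos
  have hG := C.ep_GG ha hv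
  set s := -C.b (C.ep x v) x
  have c1 : ContinuousAt (fun p : Euc n × Euc n => C.ft p.1 p.2 s) (C.ep x v, C.ep x (-v)) :=
    ContinuousAt.comp (g := fun p : (Euc n × Euc n) × ℝ => C.ft p.1.1 p.1.2 p.2)
      (f := fun p : Euc n × Euc n => (p, s)) ((C.continuousOn_ft ha).continuousAt
        ((isOpen_GO.prod isOpen_univ).mem_nhds ⟨GG_sub hG, trivial⟩)) (by fun_prop)
  have c2 : ContinuousAt (fun p : Euc n × Euc n => C.W p.1 (C.ft p.1 p.2 s))
      (C.ep x v, C.ep x (-v)) :=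
    ContinuousAt.comp (g := fun p : Euc n × Euc n => C.W p.1 p.2)
      (f := fun p : Euc n × Euc n => (p.1, C.ft p.1 p.2 s)) ((C.continuousOn_W ha).continuousAt
        ((isOpen_ne_fun continuous_fst continuous_const).mem_nhds (GG_sub hG).1))
      (continuousAt_fst.prodMk c1)
  obtain ⟨δ, δ0, hδ⟩ := Metric.continuousAt_iff.1 (c1.prodMk c2) ε hε
  obtain ⟨g, ξ', η', hP, h1, h2⟩ := C.dense_per H hT hG δ0
  obtain ⟨l, hl⟩ := hP.axis C H
  rw [← dist_eq_norm] at h1 h2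
  have := hδ (x := (ξ', η')) (max_lt h1 h2)
  rw [Prod.dist_eq, max_lt_iff, dist_eq_norm, dist_eq_norm] at this
  dsimp only at this
  rw [show C.ft (C.ep x v) (C.ep x (-v)) s = x from C.ft_ep ha hv, C.W_ep_self ha hv] at this
  exact ⟨g, _, _, l, hl s, this⟩

/-- periodic vectors are dense downstairs -/
lemma dense_periodic (hT : TrS) :
    US G ⊆ closure {q | q ∈ US G ∧ ∃ l > 0, ph G l q = q} := by
  intro q hq
  obtain ⟨C⟩ := covS n N a S G H
  obtain ⟨x, e, hu⟩ := C.exists_un hq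
  refine Metric.mem_closure_iff.2 fun ε hε => ?_
  obtain ⟨δ, δ0, hδ⟩ := Metric.continuousAt_iff.1
    (C.pr_smooth.continuous.continuousAt (x := x)) ε hε
  obtain ⟨g, y, w, l, hA, h1, h2⟩ := C.dense_axis H hT hu (lt_min δ0 hε)
  rw [← dist_eq_norm, lt_min_iff] at h1 h2
  refine ⟨(C.pr y, w), ⟨hA.un, l, hA.pos, hA.periodic C⟩, ?_⟩
  rw [dist_comm]
  exact max_lt (e ▸ hδ h1.1) h2.2


/-- one dense orbit in `GG` (`exists_trans`, `act_ep`, `ep_gd`, `ep_gd_neg`, `continuousOn_ep`) -/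
lemma dense_orbit (hT : TrS) : ∃ ξ₀ η₀, (ξ₀, η₀) ∈ GG n ∧ ∀ ξ η, (ξ, η) ∈ GG n → ∀ ε > 0,
    ∃ g, C.Deck g ∧ ‖C.act g ξ₀ - ξ‖ < ε ∧ ‖C.act g η₀ - η‖ < ε := by
  have ha := H.a_pos
  obtain ⟨x₀, v₀, hu, h⟩ := C.exists_trans H hT
  refine ⟨_, _, C.ep_GG ha hu, fun ξ η hG ε hε => ?_⟩
  obtain ⟨e1, e2⟩ := C.ep_ft ha hG 0
  have hv := C.un_W ha (GG_sub hG).1 (C.ft ξ η 0)
  obtain ⟨δ1, p1, n1⟩ := C.dyn_ep_near H hv hε
  obtain ⟨δ2, p2, n2⟩ := C.dyn_ep_near H (hv.neg C) hε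
  obtain ⟨⟨g, t, hg, -, d, w⟩, -⟩ := h _ _ hv _ (lt_min p1 p2) 0
  have d' := (C.norm_sub_le_dd ha.le _ _).trans_lt d
  rw [norm_sub_rev, lt_min_iff] at d'
  rw [lt_min_iff] at w
  have g1 := n1 _ _ ((hg.un C).2 (hu.vel C t)) d'.1 (by rw [norm_sub_rev]; exact w.1)
  have g2 := n2 _ _ ((hg.un C).2 ((hu.vel C t).neg C)) d'.2 (by rw [neg_sub_neg]; exact w.2)
  rw [← C.act_ep ha hg (hu.vel C t), C.ep_gd ha hu, e1] at g1
  rw [← C.act_ep ha hg ((hu.vel C t).neg C), C.ep_gd_neg ha hu, e2] at g2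
  exact ⟨g, hg, g1, g2⟩

end Crest.Agent.N221.Cov
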