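import Crest.Agent.N221.H.Defs
import Crest.Agent.N221.U.Ex
import Crest.Agent.N221.U.Ju
import Crest.Agent.N221.U.Lip
import Crest.Agent.Lib.ODEFlow
import Crest.Agent.N221.D.Bas
import Crest.Agent.N221.C.Loc

-- ▼ part N221/H/Cob
section

/-!
Row 221, horospherical jets: the transfer function is smooth along the weak stable leaves
(helper98, task 858).
-/

set_option autoImplicit false

open MeasureTheory Set Filter Topology Metric
open scoped ContDiff RealInnerProductSpace ENNReal BoundedContinuousFunction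
open Crest.GeometryTopology.Submanifold
open Crest.Agent.R241.DDefs Crest.Agent.R241.D2
open Crest.Agent.R208.J Crest.Agent.R208.L
open Crest.Agent.Lib.ODEFlow (nem mapsIn nem_apply contDiffOn_nem)

noncomputable section

namespace Crest.Agent.N221.H

namespace Cb

section abstract

variable {K : Type} [TopologicalSpace K] [CompactSpace K]
  {Λ E F : Type} [NormedAddCommGroup Λ] [NormedSpace ℝ Λ] [NormedAddCommGroup E] [NormedSpace ℝ E]
  [NormedAddCommGroup F] [NormedSpace ℝ F]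

theorem contDiffOn_pair {f : Λ → C(K, E)} {g : Λ → C(K, F)} {s : Set Λ}
    (hf : ContDiffOn ℝ ∞ f s) (hg : ContDiffOn ℝ ∞ g s) :
    ContDiffOn ℝ ∞ (fun y => (f y).prodMk (g y)) s := by
  have h1 := ((ContinuousLinearMap.inl ℝ E F).compLeftContinuous ℝ K).contDiff.comp_contDiffOn hf
  have h2 := ((ContinuousLinearMap.inr ℝ E F).compLeftContinuous ℝ K).contDiff.comp_contDiffOn hg
  refine (h1.add h2).congr fun y _ => ContinuousMap.ext fun z => ?_
  change (f y z, g y z) = (f y z, 0) + (0, g y z)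
  simp

/-- superposition with a function which is smooth on an open set -/
theorem exists_comp {f : Λ → C(K, E)} {s : Set Λ} (hf : ContDiffOn ℝ ∞ f s) {g : E → F}
    {O : Set E} (hO : IsOpen O) (hg : ContDiffOn ℝ ∞ g O) (h : ∀ y ∈ s, ∀ z, f y z ∈ O) :
    ∃ B : Λ → C(K, F), ContDiffOn ℝ ∞ B s ∧ ∀ y ∈ s, ∀ z, B y z = g (f y z) :=
  ⟨fun y => nem g (f y), (contDiffOn_nem (n := ⊤) hO hg).comp hf h,
    fun y hy z => nem_apply hg.continuousOn (h y hy) z⟩

omit [CompactSpace K] in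
theorem bd_half (b : K × ℕ →ᵇ ℝ) (z : K) (k : ℕ) :
    ‖(1 / 2 : ℝ) ^ (k + 1) * b (z, k)‖ ≤ (1 / 2 : ℝ) ^ (k + 1) * ‖b‖ := by
  rw [norm_mul, Real.norm_of_nonneg (by positivity)]
  exact mul_le_mul_of_nonneg_left (b.norm_coe_le_norm _) (by positivity)

theorem hasSum_half (c : ℝ) : HasSum (fun k : ℕ => (1 / 2 : ℝ) ^ (k + 1) * c) c := by
  have := (hasSum_geometric_two.mul_left (1 / 2 : ℝ)).mul_right c
  rw [show (1 / 2 : ℝ) * 2 * c = c by ring] at this
  refine this.congr_fun ?_ |> id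
  intro k
  rw [pow_succ']

omit [CompactSpace K] in
theorem summable_half (b : K × ℕ →ᵇ ℝ) (z : K) :
    Summable fun k : ℕ => (1 / 2 : ℝ) ^ (k + 1) * b (z, k) :=
  Summable.of_norm_bounded (hasSum_half ‖b‖).summable (bd_half b z)

/-- the weighted sum over the orbit -/
def Sig (K : Type) [TopologicalSpace K] [CompactSpace K] : (K × ℕ →ᵇ ℝ) →L[ℝ] C(K, ℝ) :=
  LinearMap.mkContinuous
    { toFun := fun b => ⟨fun z => ∑' k : ℕ, (1 / 2 : ℝ) ^ (k + 1) * b (z, k),
        continuous_tsum (fun k => by fun_prop) (hasSum_half ‖b‖).summable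
          fun k z => bd_half b z k⟩
      map_add' := fun b c => ContinuousMap.ext fun z => by
        simp only [BoundedContinuousFunction.add_apply, mul_add, ContinuousMap.coe_mk,
          ContinuousMap.add_apply]
        exact (summable_half b z).tsum_add (summable_half c z)
      map_smul' := fun c b => ContinuousMap.ext fun z => by
        simp only [BoundedContinuousFunction.smul_apply, smul_eq_mul, ContinuousMap.coe_mk,
          ContinuousMap.smul_apply, RingHom.id_apply, ← tsum_mul_left]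
        exact tsum_congr fun k => by ring } 1
    fun b => by
      rw [one_mul, ContinuousMap.norm_le _ (norm_nonneg b)]
      exact fun z => tsum_of_norm_bounded (hasSum_half ‖b‖) (bd_half b z)

theorem Sig_apply (b : K × ℕ →ᵇ ℝ) (z : K) :
    Sig K b z = ∑' k : ℕ, (1 / 2 : ℝ) ^ (k + 1) * b (z, k) := rfl

theorem tsum_tele {c d : ℕ → ℝ} (hd : Summable d) (h : ∀ k, d k = c (k + 1) - c k)
    (h0 : Tendsto c atTop (𝓝 0)) : ∑' k, d k = -c 0 := by
  refine tendsto_nhds_unique hd.hasSum.tendsto_sum_nat ?_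
  have := h0.sub_const (c 0)
  rw [zero_sub] at this
  refine this.congr fun k => ?_
  simp only [h, Finset.sum_range_sub]

theorem contDiff_det [FiniteDimensional ℝ E] : ContDiff ℝ ∞ (fun T : E →L[ℝ] E => T.det) := by
  have h : (fun T : E →L[ℝ] E => T.det) = fun T => ∑ σ : Equiv.Perm (Fin (Module.finrank ℝ E)),
      ((Equiv.Perm.sign σ : ℤ) : ℝ) * ∏ k, (Module.finBasis ℝ E).coord (σ k)
        (T (Module.finBasis ℝ E k)) := by
    funext T
    change LinearMap.det (T : E →ₗ[ℝ] E) = _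
    rw [← LinearMap.det_toMatrix (Module.finBasis ℝ E), Matrix.det_apply']
    simp [LinearMap.toMatrix_apply]
  rw [h]
  refine ContDiff.sum fun σ _ => contDiff_const.mul (contDiff_prod fun k _ => ?_)
  exact ((LinearMap.toContinuousLinearMap ((Module.finBasis ℝ E).coord (σ k))).comp
    (ContinuousLinearMap.apply ℝ E (Module.finBasis ℝ E k))).contDiff

/-- a continuous map that vanishes at `0` is small near `0` -/
theorem exists_small {f : Λ → E} {r : ℝ} (hr : 0 < r) (hf : ContDiffOn ℝ ∞ f (ball 0 r))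
    (h0 : f 0 = 0) {ε : ℝ} (hε : 0 < ε) : ∃ r1 > 0, ∀ y ∈ ball (0 : Λ) r1, ‖f y‖ < ε := by
  obtain ⟨δ, hδ, h⟩ := Metric.continuousAt_iff.1
    (hf.continuousOn.continuousAt (ball_mem_nhds 0 hr)) ε hε
  exact ⟨δ, hδ, fun y hy => by simpa [h0] using h hy⟩

end abstract

variable {n N : ℕ} {a : ℝ} {S : Set (Euc N)} {G : Geo n N (-(a ^ 2)) S}

/-- determinant of the Jacobi tensor with slope `-A` -/
def dt (G : Geo n N (-(a ^ 2)) S) (p : TT N × Op N × ℝ) : ℝ :=
  (Jac G p.1 (Pv G p.1) (-p.2.1) p.2.2 + (ContinuousLinearMap.id ℝ (Euc N) - Pv G p.1)).det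

/-- the domain of the flows -/
def O0 (G : Geo n N (-(a ^ 2)) S) : Set (TT N × Op N × ℝ) :=
  {p | ((p.1, ContinuousLinearMap.id ℝ (Euc N)), p.2.2) ∈ dY G ∧ (p.1, p.2.2) ∈ fd G}

theorem isOpen_O0 : IsOpen (O0 G) :=
  ((isOpen_dY G).preimage (f := fun p : TT N × Op N × ℝ =>
    ((p.1, ContinuousLinearMap.id ℝ (Euc N)), p.2.2)) (by fun_prop)).inter
    ((isOpen_fd G).preimage (f := fun p : TT N × Op N × ℝ => (p.1, p.2.2)) (by fun_prop))

theorem contDiffAt_dt {p : TT N × Op N × ℝ} (hp : p ∈ O0 G) : ContDiffAt ℝ ∞ (dt G) p := by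
  have h0 : ContDiff ℝ ∞ (fun L : Op N => L.adjoint) :=
    (ContinuousLinearMap.adjoint (𝕜 := ℝ) (E := Euc N)
      (F := Euc N)).toContinuousLinearEquiv.contDiff
  have h1 : ContDiffAt ℝ ∞ (fun p : TT N × Op N × ℝ => PT G p.1 p.2.2) p :=
    (ContDiffAt.comp (g := fY G) (f := fun p : TT N × Op N × ℝ =>
      ((p.1, ContinuousLinearMap.id ℝ (Euc N)), p.2.2)) p (contDiffAt_fY G hp.1)
      (by fun_prop)).snd
  have h2 : ContDiffAt ℝ ∞ (fun p : TT N × Op N × ℝ => PTi G p.1 p.2.2) p :=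
    h0.contDiffAt.comp p h1
  have h3 : ContDiffAt ℝ ∞ (fun p : TT N × Op N × ℝ => fderiv ℝ (fl G) (p.1, p.2.2)) p :=
    ContDiffAt.comp (g := fderiv ℝ (fl G)) (f := fun p : TT N × Op N × ℝ => (p.1, p.2.2)) p
      ((contDiffAt_fl G hp.2).fderiv_right (by simp)) (by fun_prop)
  have h4 : ContDiff ℝ ∞ (fun p : TT N × Op N × ℝ => Pv G p.1) := contDiff_Pv.comp contDiff_fst
  have h5 : ContDiff ℝ ∞ (fun p : TT N × Op N × ℝ => dP G p.1) :=
    (contDiff_dP G).comp contDiff_fst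
  have h6 : ContDiff ℝ ∞ (fun p : TT N × Op N × ℝ =>
      (Pv G p.1).prod (dP G p.1 ∘L Pv G p.1 + -p.2.1)) :=
    (ContinuousLinearMap.prodₗᵢ ℝ (𝕜 := ℝ) (E := Euc N) (F := Euc N)
      (G := Euc N)).contDiff.comp (h4.prodMk ((h5.clm_comp h4).add contDiff_snd.fst.neg))
  exact contDiff_det.contDiffAt.comp p ((h2.clm_comp (contDiffAt_const.clm_comp
    (h3.clm_comp (contDiffAt_const.clm_comp h6.contDiffAt)))).add
      (contDiffAt_const.sub h4.contDiffAt))

theorem dt_eq (H : Hyp n N a S) {w : TT N} (hw : w ∈ US G) (t : ℝ) :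
    dt G (w, U G (rev w), t) = Real.exp (St G (-t) (rev w)) := by
  obtain ⟨b, -, h⟩ := juS uExS n N a S G H
  rw [← (h _ (rev_US hw)).2.2.2.2.2.2, ← (h w hw).2.2.2.1, Pv_rev]
  rfl

variable [CompactSpace (US G)] {ρ : Euc N → Euc N} {T r : ℝ} {W : Euc N → C(US G, Euc N)}
  {β : Euc N → C(US G, ℝ)} {u : Euc N → (US G × ℕ →ᵇ TT N)}

theorem exists_pt (h : IsHor G ρ T r W β u) : ∃ P : Euc N → C(US G, TT N),
    ContDiffOn ℝ ∞ P (ball 0 r) ∧ ∀ y ∈ ball (0 : Euc N) r, ∀ z, P y z = pt ρ W y z := by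
  let b : C(US G, Euc N) := ⟨fun z => (z : TT N).1, by fun_prop⟩
  have h1 : ContDiff ℝ ∞ fun y : Euc N => b + ContinuousLinearMap.const ℝ (US G) y :=
    contDiff_const.add (ContinuousLinearMap.const ℝ (US G) (M := Euc N)).contDiff
  obtain ⟨B, hB, e⟩ := exists_comp (s := ball 0 r) h1.contDiffOn (g := ρ)
    (O := ⋃ x ∈ S, ball x r) (isOpen_biUnion fun _ _ => isOpen_ball)
    (fun x hx => by
      obtain ⟨x0, h0, hx⟩ := mem_iUnion₂.1 hx
      have := h.ret.smooth x0 h0 (x - x0) (by rwa [mem_ball_zero_iff, ← mem_ball_iff_norm])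
      rw [add_sub_cancel] at this
      exact this.contDiffWithinAt)
    (fun y hy z => mem_biUnion z.2.1.1 (by
      rw [mem_ball_iff_norm]
      change ‖(z : TT N).1 + y - (z : TT N).1‖ < r
      rwa [add_sub_cancel_left, ← mem_ball_zero_iff]))
  exact ⟨fun y => (B y).prodMk (W y), contDiffOn_pair hB h.smW,
    fun y hy z => Prod.ext (e y hy z) rfl⟩

/-- the increments of the transfer function are smooth -/
theorem exists_incr (H : Hyp n N a S) (h : IsHor G ρ T r W β u) {r' : ℝ} (hr : r' ≤ r)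
    {A : Euc N → C(US G, Op N)} (hA : ContDiffOn ℝ ∞ A (ball 0 r'))
    (eA : ∀ y ∈ ball (0 : Euc N) r', ∀ z : US G, A y z = U G (rev (pt ρ W y z)))
    {c : ℝ} {α : TT N → ℝ} (hα : ∀ z ∈ US G, ∀ t : ℝ, St G t z - c * t = α z - α (ph G t z))
    {γ : Euc N → C(US G, ℝ)} (hγ : ContDiffOn ℝ ∞ γ (ball 0 r')) :
    ∃ D : Euc N → C(US G, ℝ), ContDiffOn ℝ ∞ D (ball 0 r') ∧ ∀ y ∈ ball (0 : Euc N) r',
      ∀ z : US G, D y z = α (rev (fl G (pt ρ W y z, γ y z))) - α (rev (pt ρ W y z)) := by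
  obtain ⟨P, hP, eP⟩ := exists_pt h
  have sub := ball_subset_ball (x := (0 : Euc N)) hr
  have c0 : ContinuousOn (dt G) (O0 G) := fun p hp =>
    (contDiffAt_dt hp).continuousAt.continuousWithinAt
  have e0 : ∀ y ∈ ball (0 : Euc N) r', ∀ z : US G, ((P y).prodMk ((A y).prodMk (γ y))) z =
      (pt ρ W y z, U G (rev (pt ρ W y z)), γ y z) := fun y hy z =>
    Prod.ext (eP y (sub hy) z) (Prod.ext (eA y hy z) rfl)
  obtain ⟨D, hD, e⟩ := exists_comp (contDiffOn_pair (hP.mono sub) (contDiffOn_pair hA hγ))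
    (g := fun p => -Real.log (dt G p) - c * p.2.2) (O := O0 G ∩ dt G ⁻¹' Ioi 0)
    (c0.isOpen_inter_preimage isOpen_O0 isOpen_Ioi)
    (fun p hp => (((contDiffAt_dt hp.1).log (ne_of_gt hp.2)).neg.sub
      (by fun_prop)).contDiffWithinAt)
    (fun y hy z => by
      have m := h.mem y (sub hy) z
      rw [e0 y hy z]
      refine ⟨⟨complete_Y G m.1 _, complete G m.1 _⟩, ?_⟩
      rw [mem_preimage, dt_eq H m]
      exact Real.exp_pos _)
  refine ⟨D, hD, fun y hy z => ?_⟩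
  have m := h.mem y (sub hy) z
  have := hα _ (rev_US m) (-γ y z)
  rw [ph, fl_rev' m.1, neg_neg] at this
  rw [e y hy z, e0 y hy z, dt_eq H m, Real.log_exp]
  linarith

omit [CompactSpace (US G)] in
theorem half_le (k : ℕ) : ‖(1 / 2 : ℝ) ^ (k + 1)‖ ≤ 1 := by
  rw [Real.norm_of_nonneg (by positivity)]
  exact pow_le_one₀ (by norm_num) (by norm_num)

theorem dist_orbit (h : IsHor G ρ T r W β u) {y : Euc N} (hy : y ∈ ball (0 : Euc N) r)
    (z : US G) (k : ℕ) : dist (fl G (pt ρ W y z, β y z + (k + 1) * T)) (fl G (z, (k + 1) * T)) ≤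
      (1 / 2 : ℝ) ^ (k + 1) * ‖u y‖ := by
  rw [h.orbit y hy, dist_eq_norm, add_sub_cancel_left, norm_smul,
    Real.norm_of_nonneg (by positivity)]
  exact mul_le_mul_of_nonneg_left ((u y).norm_coe_le_norm _) (by positivity)

/-- the orbit of `pt y z` shadows the orbit of `z` -/
theorem shadow (H : Hyp n N a S) (h : IsHor G ρ T r W β u) {ε : ℝ} (hε : 0 < ε) :
    ∃ r1 > 0, r1 ≤ r ∧ ∀ y ∈ ball (0 : Euc N) r1, ∀ z : US G, |β y z| ≤ ε ∧
      ∀ t, 0 ≤ t → dist (fl G (pt ρ W y z, β y z + t)) (fl G (z, t)) ≤ ε := by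
  obtain ⟨L, L0, hL⟩ := lipS n N _ S G H.cpt
  have E0 := Real.exp_pos (L * T)
  obtain ⟨r1, h1, s1⟩ := exists_small h.ret.r_pos h.smβ h.β0 hε
  obtain ⟨r2, h2, s2⟩ := exists_small h.ret.r_pos h.smu h.u0 (div_pos hε E0)
  refine ⟨min r (min r1 r2), lt_min h.ret.r_pos (lt_min h1 h2), min_le_left _ _,
    fun y hy z => ?_⟩
  rw [mem_ball, lt_min_iff, lt_min_iff] at hy
  refine ⟨((β y).norm_coe_le_norm z).trans (s1 y hy.2.1).le, fun t ht => ?_⟩
  have T0 := h.T_pos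
  set k := ⌊t / T⌋₊
  have k1 : (k : ℝ) * T ≤ t := (le_div_iff₀ T0).1 (Nat.floor_le (div_nonneg ht T0.le))
  have k2 : t < (k + 1) * T := (div_lt_iff₀ T0).1 (Nat.lt_floor_add_one _)
  have m := h.mem y hy.1 z
  have e1 : fl G (pt ρ W y z, β y z + t) =
      fl G (fl G (pt ρ W y z, β y z + (k + 1) * T), t - (k + 1) * T) := by
    rw [← fl_add' G m.1]; congr 2; ring
  have e2 : fl G ((z : TT N), t) = fl G (fl G (z, (k + 1) * T), t - (k + 1) * T) := by
    rw [← fl_add' G z.2.1]; congr 2; ring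
  rw [e1, e2]
  refine (hL _ (fl_US m _) _ (fl_US z.2 _) _).1.trans ?_
  have b1 : Real.exp (L * |t - (k + 1) * T|) ≤ Real.exp (L * T) :=
    Real.exp_le_exp.2 (mul_le_mul_of_nonneg_left (abs_le.2 ⟨by linarith, by linarith⟩) L0.le)
  have b2 := (dist_orbit h hy.1 z k).trans
    (mul_le_of_le_one_left (norm_nonneg _) ((le_abs_self _).trans (half_le k)))
  refine (mul_le_mul b1 (b2.trans (s2 y hy.2.2).le) dist_nonneg E0.le).trans_eq ?_
  field_simp

/-- the points of the orbit of `z` -/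
def zk (T : ℝ) (z : US G) (k : ℕ) : US G := ⟨fl G (z, (k + 1) * T), fl_US z.2 _⟩

/-- the orbit of `pt y z` stays on the leaves of the orbit of `z` -/
theorem on_leaf (hU : UniqS) (H : Hyp n N a S) (h : IsHor G ρ T r W β u) {r' : ℝ} (r0 : 0 < r') :
    ∃ r1 > 0, r1 ≤ r ∧ ∀ y ∈ ball (0 : Euc N) r1, ‖u y‖ < r' ∧ ∀ (z : US G) (k : ℕ),
      fl G (pt ρ W y z, β y z + (k + 1) * T) =
        pt ρ W ((1 / 2 : ℝ) ^ (k + 1) • (u y (z, k)).1) (zk T z k) := by
  obtain ⟨δ, δ0, hδ⟩ := hU n N a S G H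
  obtain ⟨r1, h1, r1r, s1⟩ := shadow H h (half_pos δ0)
  obtain ⟨r2, h2, s2⟩ := exists_small h.ret.r_pos h.smu h.u0 (lt_min h1 r0)
  refine ⟨min r1 r2, lt_min h1 h2, (min_le_left _ _).trans r1r, fun y hy => ?_⟩
  rw [mem_ball, lt_min_iff] at hy
  have su := lt_min_iff.1 (s2 y hy.2)
  refine ⟨su.2, fun z k => ?_⟩
  have hy' : y ∈ ball (0 : Euc N) r := hy.1.trans_le r1r
  set e := (1 / 2 : ℝ) ^ (k + 1) • (u y (z, k)).1 with he
  have e1 : e ∈ ball (0 : Euc N) r1 := by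
    rw [mem_ball_zero_iff, he, norm_smul]
    exact (mul_le_of_le_one_left (norm_nonneg _) (half_le k)).trans_lt
      (((norm_fst_le _).trans ((u y).norm_coe_le_norm _)).trans_lt su.1)
  have m := h.mem y hy' z
  have m' := h.mem e (ball_subset_ball r1r e1) (zk T z k)
  have mw := fl_US m (β y z + (k + 1) * T)
  refine hδ _ mw _ m' ?_ (β e (zk T z k)) ((s1 e e1 _).1.trans (half_le_self δ0.le))
    fun t ht => ?_
  · rw [← h.ret.eq _ mw.1.1, h.orbit y hy']
    rfl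
  · have d1 := (s1 y hy.1 z).2 ((k + 1) * T + t) (add_nonneg (by have := h.T_pos; positivity) ht)
    have d2 := (s1 e e1 (zk T z k)).2 t ht
    rw [← add_assoc, fl_add' G m.1, fl_add' G z.2.1] at d1
    rw [add_comm] at d2
    refine le_trans (le_max_left _ _) (Prod.dist_eq.ge.trans
      ((dist_triangle_right _ _ (fl G (zk T z k, t))).trans ?_))
    linarith [show dist _ (fl G (zk T z k, t)) ≤ _ from d1]

omit [CompactSpace (US G)] in
theorem continuous_zk (T : ℝ) : Continuous fun p : US G × ℕ => zk T p.1 p.2 := by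
  refine Continuous.subtype_mk ((continuousOn_fl G).comp_continuous
    (f := fun p : US G × ℕ => ((p.1 : TT N), ((p.2 : ℝ) + 1) * T)) ?_
    fun p => ⟨p.1.2.1, trivial⟩) _
  have : Continuous fun k : ℕ => ((k : ℝ) + 1) * T := continuous_of_discreteTopology
  exact (continuous_subtype_val.comp continuous_fst).prodMk (this.comp continuous_snd)

theorem pt_zero (h : IsHor G ρ T r W β u) (z : US G) : pt ρ W 0 z = z :=
  Prod.ext (by rw [pt, add_zero]; exact h.ret.eq _ z.2.1.1) (h.W0 z)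

theorem tendsto_am (H : Hyp n N a S) (h : IsHor G ρ T r W β u) {f : TT N → ℝ}
    (hf : ContinuousOn f (US G)) {y : Euc N} (hy : y ∈ ball (0 : Euc N) r) (z : US G) :
    Tendsto (fun k : ℕ => f (fl G (pt ρ W y z, β y z + (k + 1) * T)) - f (zk T z k)) atTop
      (𝓝 0) := by
  have hu := Metric.uniformContinuousOn_iff.1
    ((isCompact_US G H.cpt).uniformContinuousOn_of_continuous hf)
  rw [Metric.tendsto_nhds]
  intro ε hε
  obtain ⟨δ, δ0, hδ⟩ := hu ε hε
  filter_upwards [(hasSum_half ‖u y‖).summable.tendsto_atTop_zero.eventually_lt_const δ0] with k hk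
  rw [dist_zero_right, ← dist_eq_norm]
  exact hδ _ (fl_US (h.mem y hy z) _) _ (zk T z k).2 ((dist_orbit h hy z k).trans_lt hk)

end Cb

open Cb

/-- the transfer function is smooth along the weak stable leaves -/
theorem cobHorS (hN : NemS) (hH : HadS) (hD : DHorS) (hU : UniqS) : CobHorS := by
  intro n N a S G _ H ρ T r W β u h c α cα hα
  obtain ⟨-, r', r0, r'r, A, hA, eA⟩ := hD n N a S G H ρ T r W β u h
  have sub := ball_subset_ball (x := (0 : Euc N)) r'r
  obtain ⟨D1, hD1, e1⟩ := exists_incr H h r'r hA eA hα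
    (γ := fun y => β y + ContinuousMap.const _ ((((0 : ℕ) : ℝ) + 1) * T))
    ((h.smβ.mono sub).add contDiffOn_const)
  obtain ⟨D0, hD0, e0⟩ := exists_incr H h r'r hA eA hα (γ := fun _ => ContinuousMap.const _ T)
    contDiffOn_const
  obtain ⟨g, hg, -, eg, -⟩ := hH (US G) (Euc N) ℝ D0 r' r0 hD0
  let p : C(US G × ℕ, US G × Icc (0 : ℝ) 1) := ⟨fun x => (zk T x.1 x.2,
    ⟨(1 / 2 : ℝ) ^ (x.2 + 1), by positivity, (le_abs_self _).trans (half_le _)⟩),
    (continuous_zk T).prodMk (Continuous.subtype_mk ((continuous_of_discreteTopology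
      (f := fun k : ℕ => (1 / 2 : ℝ) ^ (k + 1))).comp continuous_snd) _)⟩
  obtain ⟨Ng, hNg, eN, -⟩ := hN (US G × ℕ) (US G × Icc (0 : ℝ) 1) (Euc N) ℝ p g r' hg
  obtain ⟨r1, h1, r1r, s1⟩ := on_leaf hU H h r0
  have cm : ContinuousOn (fun q => α (rev q)) (US G) :=
    cα.comp (by unfold rev; fun_prop) fun q hq => rev_US hq
  let a0 : C(US G, ℝ) := ⟨fun z => α (rev (zk T z 0)), cm.comp_continuous
    (continuous_subtype_val.comp ((continuous_zk T).comp (Continuous.prodMk_left 0)))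
    fun z => (zk T z 0).2⟩
  let fs := (ContinuousLinearMap.fst ℝ (Euc N) (Euc N)).compLeftContinuousBounded (US G × ℕ)
  have hfs : ∀ y ∈ ball (0 : Euc N) r1, fs (u y) ∈ ball (0 : US G × ℕ →ᵇ Euc N) r' := fun y hy => by
    rw [mem_ball_zero_iff]
    exact ((BoundedContinuousFunction.norm_le (norm_nonneg _)).2 fun x =>
      (norm_fst_le _).trans ((u y).norm_coe_le_norm x)).trans_lt (s1 y hy).1
  have sub1 := ball_subset_ball (x := (0 : Euc N)) (min_le_left r1 r')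
  have sub2 := ball_subset_ball (x := (0 : Euc N)) (min_le_right r1 r')
  refine ⟨min r1 r', lt_min h1 r0, (min_le_left _ _).trans r1r,
    fun y => a0 - Sig (US G) (Ng (fs (u y))) - D1 y, ?_, fun y hy z => ?_⟩
  · refine (contDiffOn_const.sub ((Sig (US G)).contDiff.comp_contDiffOn (hNg.comp
      (fs.contDiff.comp_contDiffOn (h.smu.mono (sub2.trans sub))) fun y hy =>
        hfs y (sub1 hy)))).sub (hD1.mono sub2)
  · have hy' := sub (sub2 hy)
    have m := h.mem y hy' z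
    have key := tsum_tele (summable_half (Ng (fs (u y))) z) (c := fun k : ℕ =>
      α (rev (fl G (pt ρ W y z, β y z + (k + 1) * T))) - α (rev (zk T z k))) (fun k => ?_)
      (tendsto_am H h cm hy' z)
    · rw [ContinuousMap.sub_apply, ContinuousMap.sub_apply, Sig_apply, key, e1 y (sub2 hy)]
      change α (rev (zk T z 0)) - _ - (α (rev (fl G (pt ρ W y z, β y z + _))) - _) = _
      rw [ContinuousMap.const_apply]
      ring
    · have b1 : (u y (z, k)).1 ∈ ball (0 : Euc N) r' := mem_ball_zero_iff.2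
        (((norm_fst_le _).trans ((u y).norm_coe_le_norm _)).trans_lt (s1 y (sub1 hy)).1)
      have b2 : (1 / 2 : ℝ) ^ (k + 1) • (u y (z, k)).1 ∈ ball (0 : Euc N) r' := by
        rw [mem_ball_zero_iff, norm_smul]
        exact (mul_le_of_le_one_left (norm_nonneg _) (half_le k)).trans_lt
          (mem_ball_zero_iff.1 b1)
      have f1 : fl G (pt ρ W y z, β y z + ((k + 1 : ℕ) + 1) * T) =
          fl G (fl G (pt ρ W y z, β y z + (k + 1) * T), T) := by
        rw [← fl_add' G m.1]; congr 2; push_cast; ring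
      have f2 : (zk T z (k + 1) : TT N) = fl G (zk T z k, T) := by
        rw [zk, zk, ← fl_add' G z.2.1]
        exact congrArg (fun t => fl G (z, t)) (by push_cast; ring)
      have g1 := eg _ b1 (p (z, k)).1 (p (z, k)).2
      rw [eN _ (hfs y (sub1 hy))]
      refine Eq.trans g1 ?_
      change D0 ((1 / 2 : ℝ) ^ (k + 1) • (u y (z, k)).1) (zk T z k) - D0 0 (zk T z k) = _
      rw [e0 _ b2, e0 0 (mem_ball_self r0), ← (s1 y (sub1 hy)).2 z k, pt_zero h, f1, f2,
        ContinuousMap.const_apply]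
      ring

end Crest.Agent.N221.H
end
end

-- ▼ part N221/D/Hor

/-!
Row 221, block D: bridge between the horospherical structure `H.IsHor` and the cover.
`W ξ ·`, `b ξ ·`, `U (rev (pr ·, W ξ ·))`, `α (rev (pr ·, W ξ ·))` are smooth maps from the cover to
the Banach space of continuous functions of `ξ` on the unit sphere (all `y`-jets continuous in `ξ`).
-/

set_option autoImplicit false
set_option linter.unusedSectionVars false
set_option linter.unusedVariables false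

open MeasureTheory Set Filter Topology
open scoped ContDiff RealInnerProductSpace ENNReal
open Crest.GeometryTopology.Submanifold
open Crest.Agent.R241.DDefs Crest.Agent.R241.D2
open Crest.Agent.R208.J Crest.Agent.R208.L

noncomputable section

namespace Crest.Agent.N221.Cov

variable {n N : ℕ} {a : ℝ} {S : Set (Euc N)} {G : Geo n N (-(a ^ 2)) S} (C : Cov G)

open H Metric

variable (H : Hyp n N a S)
include H

/-- the direction and the Busemann function from the horospherical structure -/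
lemma hor_eq2 [CompactSpace (US G)] {ρ : Euc N → Euc N} {T r : ℝ} {V : Euc N → C(US G, Euc N)}
    {β : Euc N → C(US G, ℝ)} {u : Euc N → BoundedContinuousFunction (US G × ℕ) (TT N)}
    (h : IsHor G ρ T r V β u) : ∃ r1 > 0, r1 ≤ r ∧ ∀ y₀ y v (hv : C.Un y₀ v), C.dd y₀ y < r1 →
      pt ρ V (C.pr y - C.pr y₀) ⟨(C.pr y₀, v), hv⟩ = (C.pr y, C.asy y₀ v y) ∧
      β (C.pr y - C.pr y₀) ⟨(C.pr y₀, v), hv⟩ = C.bus y₀ v y := by
  have ha := H.a_pos
  obtain ⟨ε₀, hε₀, hl⟩ := C.lift_close H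
  obtain ⟨r0, hr0, h0, -⟩ := C.exists_r0 H
  set ε := min ε₀ (r0 / 2) with hε
  have ε0 : 0 < ε := by positivity
  obtain ⟨r1, h1, r1r, hs⟩ := Cb.shadow H h ε0
  refine ⟨min r1 ε, by positivity, (min_le_left _ _).trans r1r, fun y₀ y v hv hd => ?_⟩
  rw [lt_min_iff] at hd
  set z : US G := ⟨(C.pr y₀, v), hv⟩ with hz
  set η := C.pr y - C.pr y₀ with hη
  have hη1 : η ∈ ball (0 : Euc N) r1 := by
    rw [mem_ball_zero_iff, hη, norm_sub_rev]
    exact (C.pr_sub_le y₀ y).trans_lt hd.1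
  have hηr := ball_subset_ball r1r hη1
  set w := V η z with hw
  have hp : pt ρ V η z = (C.pr y, w) := by
    refine Prod.ext ?_ rfl
    change ρ (C.pr y₀ + (C.pr y - C.pr y₀)) = C.pr y
    rw [add_sub_cancel, h.ret.eq _ (C.pr_mem y)]
  have hu : C.Un y w := by
    have := h.mem η hηr z
    rwa [hp] at this
  obtain ⟨hb, hs⟩ := hs η hη1 z
  set B := β η z with hB
  have up : ∀ t, ‖C.pr (C.gd y w (B + t)) - C.pr (C.gd y₀ v t)‖ ≤
      dist (fl G (pt ρ V η z, B + t)) (fl G (z, t)) := fun t => by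
    rw [hp, C.up_gd hu.mem, hz, C.up_gd hv.mem, ← dist_eq_norm]
    exact le_max_left _ _
  have cl : ∀ t, 0 ≤ t → C.dd (C.gd y w (B + t)) (C.gd y₀ v t) ≤ 2 * ε := fun t ht =>
    hl ε (min_le_left _ _) (fun t => C.gd y w (B + t)) (C.gd y₀ v) 0 t
      ((C.contDiff_gd_t y w).continuous.comp (by fun_prop)).continuousOn
      (C.contDiff_gd_t y₀ v).continuous.continuousOn (by
        have h2 := C.dd_triangle ha.le (C.gd y w B) y y₀
        rw [C.dd_comm _ y, hu.dd_gd_zero, C.dd_comm y] at h2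
        simp only [add_zero, C.gd_zero]
        linarith [hd.2])
      (fun s hs' => (up s).trans (hs s hs'.1)) t ⟨ht, le_rfl⟩
  have e1 : w = C.asy y₀ v y := C.eq_asy ha hv hu (B := ε + 2 * ε) fun s hs' => by
    have h2 := C.dd_triangle ha.le (C.gd y w s) (C.gd y w (B + s)) (C.gd y₀ v s)
    rw [hu.dd_gd, add_sub_cancel_right] at h2
    linarith [cl s hs']
  refine ⟨by rw [hp, e1], ?_⟩
  rw [← sub_eq_zero, ← abs_nonpos_iff]
  have lim := (Cb.hasSum_half ‖u η‖).summable.tendsto_atTop_zero.const_mul 2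
  rw [mul_zero] at lim
  refine ge_of_tendsto' lim fun k => ?_
  have T0 : 0 ≤ ((k : ℝ) + 1) * T := by have := h.T_pos; positivity
  have h2 := C.abs_bus_sub_le ha hv (C.gd y w (B + (k + 1) * T)) (C.gd y₀ v ((k + 1) * T))
  rw [C.bus_gd ha hv, e1, C.bus_gd_asy ha hv, ← e1] at h2
  have h3 := h0 _ _ ((cl _ T0).trans (by linarith [min_le_right ε₀ (r0 / 2)]))
  have h4 := (up _).trans (Cb.dist_orbit h hηr z k)
  rw [abs_sub_comm, show C.bus y₀ v y - B =
    C.bus y₀ v y - (B + (k + 1) * T) - -((k + 1) * T) by ring]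
  linarith

/-- `Cb.shadow` + `lift_close` on `[0, t]` for `gd y w (β + ·)` and `gd y₀ v`, then `eq_asy`
(after the shift `β`, triangle inequality) -/
lemma hor_eq [CompactSpace (US G)] {ρ : Euc N → Euc N} {T r : ℝ} {V : Euc N → C(US G, Euc N)}
    {β : Euc N → C(US G, ℝ)} {u : Euc N → BoundedContinuousFunction (US G × ℕ) (TT N)}
    (h : IsHor G ρ T r V β u) : ∃ r1 > 0, r1 ≤ r ∧ ∀ y₀ y v (hv : C.Un y₀ v), C.dd y₀ y < r1 →
      pt ρ V (C.pr y - C.pr y₀) ⟨(C.pr y₀, v), hv⟩ = (C.pr y, C.asy y₀ v y) := by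
  obtain ⟨r1, h1, h2, h3⟩ := C.hor_eq2 H h
  exact ⟨r1, h1, h2, fun y₀ y v hv hd => (h3 y₀ y v hv hd).1⟩

omit H in
lemma sph_ne (ξ : sphere (0 : Euc n) 1) : (ξ : Euc n) ≠ 0 := ne_zero_of_mem_unit_sphere ξ

/-- the directions at `y` to the boundary points -/
def kap (y : Euc n) : C(sphere (0 : Euc n) 1, US G) :=
  ⟨fun ξ => ⟨(C.pr y, C.W ξ y), C.un_W H.a_pos (sph_ne ξ) y⟩,
    Continuous.subtype_mk (continuous_const.prodMk ((C.continuousOn_W H.a_pos).comp_continuous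
      (f := fun ξ : sphere (0 : Euc n) 1 => ((ξ : Euc n), y)) (by fun_prop) sph_ne)) _⟩

omit H in
lemma ev_dd (y₀ : Euc n) {r : ℝ} (hr : 0 < r) : ∀ᶠ y in 𝓝 y₀, C.dd y₀ y < r :=
  (C.continuous_dd_right y₀).continuousAt.eventually_lt_const ((C.dd_self y₀).trans_lt hr)

omit H in
lemma mem_ball_of_dd {y₀ y : Euc n} {r : ℝ} (h : C.dd y₀ y < r) :
    C.pr y - C.pr y₀ ∈ ball (0 : Euc N) r := by
  rw [mem_ball_zero_iff, norm_sub_rev]
  exact (C.pr_sub_le y₀ y).trans_lt h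

omit H in
lemma contDiffAt_comp_pr {E : Type} [NormedAddCommGroup E] [NormedSpace ℝ E] {A : Euc N → E}
    {r : ℝ} (hr : 0 < r) (hA : ContDiffOn ℝ ∞ A (ball 0 r)) (y₀ : Euc n) :
    ContDiffAt ℝ ∞ (fun y => A (C.pr y - C.pr y₀)) y₀ := by
  refine ContDiffAt.comp (g := A) (f := fun y => C.pr y - C.pr y₀) y₀ ?_
    (C.pr_smooth.sub contDiff_const).contDiffAt
  rw [sub_self]
  exact hA.contDiffAt (ball_mem_nhds 0 hr)

/-- transfer of smoothness: near `y₀`, `F (pr y, W ξ y) = A (pr y - pr y₀) (pr y₀, W ξ y₀)`, and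
precomposition with the continuous map `ξ ↦ (pr y₀, W ξ y₀)` is a continuous linear map
(`ContinuousMap.compRightContinuousMap`, `LinearMap.mkContinuous`) -/
lemma smooth_of_hor [CompactSpace (US G)] {ρ : Euc N → Euc N} {T r : ℝ}
    {V : Euc N → C(US G, Euc N)} {β : Euc N → C(US G, ℝ)}
    {u : Euc N → BoundedContinuousFunction (US G × ℕ) (TT N)} (h : IsHor G ρ T r V β u)
    {E : Type} [NormedAddCommGroup E] [NormedSpace ℝ E] {F : TT N → E} {r' : ℝ} (hr' : 0 < r')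
    {A : Euc N → C(US G, E)} (hA : ContDiffOn ℝ ∞ A (ball 0 r'))
    (eA : ∀ y ∈ ball (0 : Euc N) r', ∀ z : US G, A y z = F (pt ρ V y z)) :
    ∃ B : Euc n → C(sphere (0 : Euc n) 1, E), ContDiff ℝ ∞ B ∧
      ∀ y ξ, B y ξ = F (C.pr y, C.W ξ y) := by
  obtain ⟨r1, h1, -, h3⟩ := C.hor_eq H h
  have e0 : ∀ y ξ, (A 0).comp (C.kap H y) ξ = F (C.pr y, C.W ξ y) := fun y ξ => by
    rw [ContinuousMap.comp_apply, eA 0 (mem_ball_self hr'), Cb.pt_zero h]
    rfl
  refine ⟨fun y => (A 0).comp (C.kap H y), contDiff_iff_contDiffAt.2 fun y₀ => ?_, e0⟩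
  refine ((ContinuousMap.compCLM ℝ E (C.kap H y₀)).contDiff.contDiffAt.comp y₀
    (C.contDiffAt_comp_pr hr' hA y₀)).congr_of_eventuallyEq ?_
  filter_upwards [C.ev_dd y₀ h1, C.ev_dd y₀ hr'] with y hy hy'
  ext ξ
  rw [e0]
  change _ = A (C.pr y - C.pr y₀) (C.kap H y₀ ξ)
  rw [eA _ (C.mem_ball_of_dd hy'), ← C.asy_W H.a_pos (sph_ne ξ) y₀ y]
  exact congrArg F (h3 y₀ y _ _ hy).symm

omit C in
lemma cptUS (G : Geo n N (-(a ^ 2)) S) : CompactSpace (US G) :=
  isCompact_iff_compactSpace.1 (isCompact_US G H.cpt)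

lemma smooth_W (hH : HorS) : ∃ B : Euc n → C(sphere (0 : Euc n) 1, Euc N), ContDiff ℝ ∞ B ∧
    ∀ y ξ, B y ξ = C.W ξ y := by
  have := cptUS H G
  obtain ⟨ρ, T, r, V, β, u, h⟩ := hH n N a S G H
  exact C.smooth_of_hor H h (F := Prod.snd) h.ret.r_pos h.smW fun _ _ _ => rfl

omit H in
lemma unit_mem {ξ : Euc n} (hξ : ξ ≠ 0) : ‖ξ‖⁻¹ • ξ ∈ sphere (0 : Euc n) 1 := by
  rw [mem_sphere_zero_iff_norm, norm_smul, norm_inv, norm_norm,
    inv_mul_cancel₀ (norm_ne_zero_iff.2 hξ)]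

lemma contDiff_W (hH : HorS) {ξ : Euc n} (hξ : ξ ≠ 0) : ContDiff ℝ ∞ (C.W ξ) := by
  obtain ⟨B, hB, e⟩ := C.smooth_W H hH
  have h1 := (ContinuousMap.evalCLM ℝ (M := Euc N) (⟨_, unit_mem hξ⟩ : sphere (0 : Euc n) 1)).contDiff.comp hB
  convert h1 using 1
  funext y
  rw [← C.W_smul (inv_pos.2 (norm_pos_iff.2 hξ))]
  exact (e y ⟨_, unit_mem hξ⟩).symm

/-- `b ξ y = -∫₀¹ ⟪W ξ (t y), D pr (t y) y⟫ dt`, or: `B y` is continuous in `ξ`, has the derivative
`hasFDerivAt_b` uniformly in `ξ` (mean value inequality), which is smooth -/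
lemma smooth_b (hH : HorS) : ∃ B : Euc n → C(sphere (0 : Euc n) 1, ℝ), ContDiff ℝ ∞ B ∧
    ∀ y ξ, B y ξ = C.b ξ y := by
  have := cptUS H G
  obtain ⟨ρ, T, r, V, β, u, h⟩ := hH n N a S G H
  obtain ⟨r1, h1, -, h3⟩ := C.hor_eq2 H h
  let B : Euc n → C(sphere (0 : Euc n) 1, ℝ) := fun y => ⟨fun ξ => C.b ξ y,
    (C.continuousOn_b H.a_pos).comp_continuous
      (f := fun ξ : sphere (0 : Euc n) 1 => ((ξ : Euc n), y)) (by fun_prop) sph_ne⟩
  refine ⟨B, contDiff_iff_contDiffAt.2 fun y₀ => ?_, fun _ _ => rfl⟩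
  refine (((ContinuousMap.compCLM ℝ ℝ (C.kap H y₀)).contDiff.contDiffAt.comp y₀
    (C.contDiffAt_comp_pr h.ret.r_pos h.smβ y₀)).add
      (contDiffAt_const (c := B y₀))).congr_of_eventuallyEq ?_
  filter_upwards [C.ev_dd y₀ h1] with y hy
  ext ξ
  change C.b ξ y = β (C.pr y - C.pr y₀) (C.kap H y₀ ξ) + C.b ξ y₀
  rw [← sub_eq_iff_eq_add, ← C.bus_W H.a_pos (sph_ne ξ) y₀ y]
  exact (h3 y₀ y _ _ hy).2.symm

lemma contDiff_b (hH : HorS) {ξ : Euc n} (hξ : ξ ≠ 0) : ContDiff ℝ ∞ (C.b ξ) := by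
  obtain ⟨B, hB, e⟩ := C.smooth_b H hH
  have h1 := (ContinuousMap.evalCLM ℝ (M := ℝ) (⟨_, unit_mem hξ⟩ : sphere (0 : Euc n) 1)).contDiff.comp hB
  convert h1 using 1
  funext y
  rw [← C.b_smul (inv_pos.2 (norm_pos_iff.2 hξ))]
  exact (e y ⟨_, unit_mem hξ⟩).symm

/-- `∇ W = -U ∘ rev` (tangential part) -/
lemma fderiv_W (hH : HorS) (hD : DHorS) {ξ : Euc n} (hξ : ξ ≠ 0) (y e : Euc n) :
    G.P (C.pr y) (fderiv ℝ (C.W ξ) y e) =
      -U G (rev (C.pr y, C.W ξ y)) (fderiv ℝ C.pr y e) := by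
  have := cptUS H G
  obtain ⟨ρ, T, r, V, β, u, h⟩ := hH n N a S G H
  obtain ⟨r1, h1, -, h3⟩ := C.hor_eq H h
  have r0 := h.ret.r_pos
  set z : US G := ⟨(C.pr y, C.W ξ y), C.un_W H.a_pos hξ y⟩ with hz
  have dp : HasFDerivAt C.pr (fderiv ℝ C.pr y) y :=
    (C.pr_smooth.differentiable (by simp) y).hasFDerivAt
  have dV : HasFDerivAt V (fderiv ℝ V 0) (C.pr y - C.pr y) := by
    rw [sub_self]
    exact ((h.smW.contDiffAt (ball_mem_nhds 0 r0)).differentiableAt (by simp)).hasFDerivAt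
  have d1 := (ContinuousMap.evalCLM ℝ (M := Euc N) z).hasFDerivAt.comp y
    (HasFDerivAt.comp (f := fun y' => C.pr y' - C.pr y) y dV (dp.sub_const (C.pr y)))
  have d2 : HasFDerivAt (C.W ξ) _ y := d1.congr_of_eventuallyEq (by
    filter_upwards [C.ev_dd y h1] with y' hy'
    rw [← C.asy_W H.a_pos hξ y y']
    exact (congrArg Prod.snd (h3 y y' _ _ hy')).symm)
  have dρ : HasFDerivAt ρ (fderiv ℝ ρ (C.pr y)) (C.pr y) := by
    have := h.ret.smooth _ (C.pr_mem y) 0 (mem_ball_self r0)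
    rw [add_zero] at this
    exact (this.differentiableAt (by simp)).hasFDerivAt
  have d3 : (fderiv ℝ ρ (C.pr y)).comp (fderiv ℝ C.pr y) = fderiv ℝ C.pr y := by
    have := dρ.comp y dp
    rw [show ρ ∘ C.pr = C.pr from funext fun x => h.ret.eq _ (C.pr_mem x)] at this
    exact this.unique dp
  have h4 := ((hD n N a S G H ρ T r V β u h).1 0 (mem_ball_self r0) z (fderiv ℝ C.pr y e)).1
  rw [Cb.pt_zero h, add_zero] at h4
  rw [d2.fderiv]
  refine h4.trans ?_
  change -U G (rev (C.pr y, C.W ξ y)) (((fderiv ℝ ρ (C.pr y)).comp (fderiv ℝ C.pr y)) e) = _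
  rw [d3]

/-- full derivative: the normal part is `dP` (`TanTS.snd_eq`) -/
lemma fderiv_W' (hH : HorS) (hD : DHorS) {ξ : Euc n} (hξ : ξ ≠ 0) (y e : Euc n) :
    fderiv ℝ (C.W ξ) y e = dP G (C.pr y, C.W ξ y) (fderiv ℝ C.pr y e) -
      U G (rev (C.pr y, C.W ξ y)) (fderiv ℝ C.pr y e) := by
  have hl : HasDerivAt (fun s : ℝ => y + s • e) e 0 := by
    simpa using ((hasDerivAt_id (0 : ℝ)).smul_const e).const_add y
  have d1 : HasDerivAt (fun s : ℝ => C.pr (y + s • e)) (fderiv ℝ C.pr y e) 0 :=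
    (C.pr_smooth.differentiable (by simp) y).hasFDerivAt.comp_hasDerivAt_of_eq 0 hl (by simp)
  have d2 : HasDerivAt (fun s : ℝ => C.W ξ (y + s • e)) (fderiv ℝ (C.W ξ) y e) 0 :=
    ((C.contDiff_W H hH hξ).differentiable (by simp) y).hasFDerivAt.comp_hasDerivAt_of_eq 0 hl
      (by simp)
  have ht : Crest.Agent.R208.J.TanTS G (C.pr y, C.W ξ y)
      (fderiv ℝ C.pr y e, fderiv ℝ (C.W ξ) y e) :=
    ⟨fun s => (C.pr (y + s • e), C.W ξ (y + s • e)), by simp, d1.prodMk d2,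
      Eventually.of_forall fun s => (C.un_W H.a_pos hξ _).ts⟩
  have h1 := ht.snd_eq
  simp only at h1
  rw [C.fderiv_W H hH hD hξ] at h1
  rw [h1]
  abel


lemma smooth_al (hH : HorS) (hC : CobHorS) {h : ℝ} {α : TT N → ℝ} (hα : ContinuousOn α (US G))
    (e : ∀ z ∈ US G, ∀ t : ℝ, St G t z - h * t = α z - α (ph G t z)) :
    ∃ B : Euc n → C(sphere (0 : Euc n) 1, ℝ), ContDiff ℝ ∞ B ∧
      ∀ y ξ, B y ξ = α (rev (C.pr y, C.W ξ y)) := by
  have := cptUS H G
  obtain ⟨ρ, T, r, V, β, u, h'⟩ := hH n N a S G H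
  obtain ⟨r', r0, -, A, hA, eA⟩ := hC n N a S G H ρ T r V β u h' h α hα e
  exact C.smooth_of_hor H h' (F := fun q => α (rev q)) r0 hA eA

end Crest.Agent.N221.Cov
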